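import Vale.Agent.P265.H423.Transfer
import Vale.Agent.P265.H264.Bound
import Vale.Agent.P265.H266.Assembly
import Mathlib.RingTheory.RootsOfUnity.PrimitiveRoots

/-!
# The sixfold cyclic cover of `M`
-/

open Set Topology

namespace Vale.Agent.P265.Top

open Vale.Agent.P265.AS Vale.Agent.P265.Dis

/-- The map `f` from `M` to the circle. -/
noncomputable def hM (m : Dis.M) : Circle := toC (fW (RL.ι m).1) ((mem_iff _).1 (RL.G_ι m)).2.1

theorem coe_hM (m : Dis.M) : (hM m : ℂ) = fW (RL.ι m).1 := rfl

theorem continuous_hM : Continuous hM := by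
  refine Continuous.subtype_mk ?_ _
  exact contDiff_fW.continuous.comp (continuous_fst.comp RL.continuous_ι)

/-- The total space of the cover. -/
abbrev NN : Type := {q : Dis.M × Circle // q.2 ^ 6 = hM q.1}

instance : CompactSpace NN := by
  refine isCompact_iff_compactSpace.1 (IsClosed.isCompact ?_)
  exact isClosed_eq (continuous_snd.pow 6) (continuous_hM.comp continuous_fst)

theorem ze_pow_ne (i : ℕ) (h0 : 0 < i) (h6 : i < 6) : ze ^ i ≠ 1 := by
  intro h
  have e4 : ze ^ 4 = -ze := by rw [pow_succ, ze_cube]; ring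
  have e5 : ze ^ 5 = -om := by rw [show ze ^ 5 = ze ^ 3 * ze ^ 2 by ring, ze_cube, ze_sq]; ring
  interval_cases i
  · have := congrArg Complex.re h
    simp [ze] at this
  · rw [ze_sq] at h
    have := congrArg Complex.re h
    simp [om] at this; norm_num at this
  · rw [ze_cube] at h
    norm_num at h
  · rw [e4] at h
    have := congrArg Complex.re h
    simp [ze] at this; norm_num at this
  · rw [e5] at h
    have := congrArg Complex.re h
    simp [om] at this; norm_num at this

theorem primitive_ze : IsPrimitiveRoot ze 6 :=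
  IsPrimitiveRoot.mk_of_lt ze (by norm_num) ze_six ze_pow_ne

/-- `ze` as a point of the circle. -/
noncomputable def zC : Circle := toC ze norm_ze

theorem coe_zC : (zC : ℂ) = ze := rfl

theorem zC_six : zC ^ 6 = 1 := by
  apply Circle.ext
  rw [Circle.coe_pow, coe_zC, ze_six, Circle.coe_one]

/-- The deck transformation of the cover. -/
noncomputable def gN (q : NN) : NN :=
  ⟨(q.1.1, zC * q.1.2), by
    change (zC * q.1.2) ^ 6 = hM q.1.1
    rw [mul_pow, zC_six, one_mul, q.2]⟩

theorem gN_iter (i : ℕ) (q : NN) : gN^[i] q = ⟨(q.1.1, zC ^ i * q.1.2), by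
    change (zC ^ i * q.1.2) ^ 6 = hM q.1.1
    rw [mul_pow, ← pow_mul, mul_comm, pow_mul', zC_six, one_pow, mul_one, q.2]⟩ := by
  induction i with
  | zero => apply Subtype.ext; simp
  | succ i ih =>
    rw [Function.iterate_succ_apply', ih]
    apply Subtype.ext
    simp only [gN]
    rw [pow_succ', mul_assoc]

/-- A sixth root on the circle. -/
noncomputable def root6 (u : Circle) : Circle := Circle.exp (Complex.arg u / 6)

theorem root6_pow (u : Circle) : root6 u ^ 6 = u := by
  have h : root6 u ^ 6 = Circle.exp (6 • (Complex.arg u / 6)) := by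
    rw [root6, Circle.exp_nsmul]
  rw [h, nsmul_eq_mul, Nat.cast_ofNat, mul_div_cancel₀ _ (by norm_num : (6 : ℝ) ≠ 0),
    Circle.exp_arg]

theorem root6_one : root6 1 = 1 := by
  simp [root6]

/-- The local lift. -/
noncomputable def liftN (q : NN) (m : Dis.M) : NN :=
  ⟨(m, q.1.2 * root6 (hM m / hM q.1.1)), by
    change (q.1.2 * root6 (hM m / hM q.1.1)) ^ 6 = hM m
    rw [mul_pow, root6_pow, q.2, mul_div_cancel]⟩

theorem exists_delta : ∃ δ > 0, ∀ a b : Dis.M, dist a b < δ → dist (hM a) (hM b) < 1 := by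
  obtain ⟨δ, hδ, H⟩ := Metric.uniformContinuous_iff.1
    (CompactSpace.uniformContinuous_of_continuous continuous_hM) 1 one_pos
  exact ⟨δ, hδ, fun a b h => H h⟩

theorem slit_of_dist {a b : Circle} (h : dist a b < 1) :
    ((b / a : Circle) : ℂ) ∈ Complex.slitPlane := by
  have ha : (a : ℂ) ≠ 0 := Circle.coe_ne_zero a
  have h1 : ‖((b / a : Circle) : ℂ) - 1‖ < 1 := by
    have e : ((b / a : Circle) : ℂ) - 1 = ((b : ℂ) - a) / a := by
      rw [Circle.coe_div, sub_div, div_self ha]
    rw [e, norm_div, Circle.norm_coe, div_one, ← dist_eq_norm, dist_comm]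
    exact h
  refine Or.inl ?_
  have h2 := (Complex.abs_re_le_norm _).trans_lt h1
  rw [abs_lt] at h2
  have := h2.1
  simp only [Complex.sub_re, Complex.one_re] at this
  linarith

/-- The cyclic cover. -/
noncomputable def cover : CycCover Dis.M NN 6 where
  π := fun q => q.1.1
  g := gN
  lift := liftN
  δ := exists_delta.choose
  n_pos := by norm_num
  δ_pos := exists_delta.choose_spec.1
  cont_π := by fun_prop
  cont_g := by
    refine Continuous.subtype_mk ?_ _
    fun_prop
  surj := fun m => ⟨⟨(m, root6 (hM m)), root6_pow _⟩, rfl⟩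
  π_g := fun _ => rfl
  iter := fun q => by
    rw [gN_iter]
    apply Subtype.ext
    simp [zC_six]
  free := fun q i h0 h6 h => by
    rw [gN_iter] at h
    have h' := congrArg (fun q : NN => q.1.2) h
    simp only at h'
    have h'' : zC ^ i = 1 := by simpa using h'
    apply ze_pow_ne i h0 h6
    have := congrArg (fun z : Circle => (z : ℂ)) h''
    simpa [coe_zC] using this
  fiber := fun x y h => by
    have h6 : ((y.1.2 / x.1.2 : Circle) : ℂ) ^ 6 = 1 := by
      have e : (y.1.2 / x.1.2) ^ 6 = 1 := by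
        rw [div_pow, y.2, x.2]
        rw [show x.1.1 = y.1.1 from h, div_self']
      rw [← Circle.coe_pow, e, Circle.coe_one]
    obtain ⟨i, hi, hz⟩ := primitive_ze.eq_pow_of_pow_eq_one h6
    refine ⟨i, hi, ?_⟩
    rw [gN_iter]
    apply Subtype.ext
    refine Prod.ext (Eq.symm h) ?_
    have hz' : zC ^ i = y.1.2 / x.1.2 := by
      apply Circle.ext
      rw [Circle.coe_pow, coe_zC, hz]
    simp only [hz', div_mul_cancel]
  π_lift := fun _ _ _ => rfl
  lift_self := fun q => by
    apply Subtype.ext
    simp [liftN, root6_one]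
  lift_g := fun q m _ => by
    apply Subtype.ext
    simp [liftN, gN, mul_assoc]
  cont_lift := by
    have hi : Topology.IsInducing (Subtype.val : NN → Dis.M × Circle) :=
      Topology.IsInducing.subtypeVal
    refine hi.continuousOn_iff.2 ?_
    refine ContinuousOn.prodMk continuous_snd.continuousOn ?_
    refine ContinuousOn.mul (by fun_prop) ?_
    refine Circle.exp.continuous.comp_continuousOn (ContinuousOn.div_const ?_ _)
    intro q hq
    refine ContinuousAt.continuousWithinAt ?_
    have hc : Continuous fun q : NN × Dis.M => ((hM q.2 / hM q.1.1.1 : Circle) : ℂ) :=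
      continuous_cC.comp ((continuous_hM.comp continuous_snd).div'
        (continuous_hM.comp (by fun_prop)))
    exact ContinuousAt.comp (g := Complex.arg)
      (f := fun q : NN × Dis.M => ((hM q.2 / hM q.1.1.1 : Circle) : ℂ))
      (Complex.continuousAt_arg (slit_of_dist (exists_delta.choose_spec.2 _ _ hq)))
      hc.continuousAt

theorem M_nonempty : Nonempty Dis.M :=
  ⟨(toN hM coe_hM ⟨YY_nonempty.some, YY_nonempty.some_mem⟩).1.1⟩

/-- The equivariant Betti numbers of the cover. -/
theorem transfer_cover {k : Type} [Field k] (χ : k) (j : ℕ) :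
    hh gY χ YY ∅ j ≤ hh cover.g χ univ ∅ j :=
  transfer hM coe_hM gN (fun _ => rfl) (fun _ => rfl) χ j

attribute [local instance] fact7

theorem betti_cover :
    2 ≤ hh cover.g (3 : ZMod 7) univ ∅ 1 ∧ 4 ≤ hh cover.g (3 : ZMod 7) univ ∅ 2 ∧
    4 ≤ hh cover.g (3 : ZMod 7) univ ∅ 3 ∧ 4 ≤ hh cover.g (3 : ZMod 7) univ ∅ 4 ∧
    2 ≤ hh cover.g (3 : ZMod 7) univ ∅ 5 := by
  obtain ⟨h1, h2, h3, h4, h5⟩ := hh_product_ge gSi (3 : ZMod 7) Sig (ζ := ze) (ρ := 1) ze_six
    (one_pow 6) two_le_hh_Sig7
  exact ⟨h1.trans (transfer_cover 3 1), h2.trans (transfer_cover 3 2),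
    h3.trans (transfer_cover 3 3), h4.trans (transfer_cover 3 4), h5.trans (transfer_cover 3 5)⟩

/-- **The lower bound**: the stable Morse number of `M` is at least `17`. -/
theorem seventeen_le_stableMorse (hMI : MorseIneq) : 17 ≤ Loc.StableMorseNumber Dis.V Dis.M := by
  have : Nonempty Dis.M := M_nonempty
  obtain ⟨h1, h2, h3, h4, h5⟩ := betti_cover
  exact H264.seventeen_le_of cover hMI (3 : ZMod 7) (by decide)
    (AS.one_le_hh_zero cover.g univ
      ⟨toN hM coe_hM ⟨YY_nonempty.some, YY_nonempty.some_mem⟩, mem_univ _⟩)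
    h1 h2 h3 h4 h5

end Vale.Agent.P265.Top
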