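import Vale.Agent.P265.H423.Surface

/-!
# Two equivariant small 1-cocycles on the surface `Sig` and the test path
-/

namespace Vale.Agent.P265.Top

open Set Filter Topology

variable {k : Type*} [Field k] {W : k}

/-- The common part of the two cocycles. -/
noncomputable def cc (W : k) (p q : ℂ × ℂ × ℝ) : k :=
  open Classical in if ra p < 1 / 2 then eta0 W q - eta0 W p else eta1 W q - eta1 W p

/-- The 1-cocycle supported on the half `0 < σ s`. -/
noncomputable def cl (σ : ℝ) (W : k) (p q : ℂ × ℂ × ℝ) : k :=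
  open Classical in if 0 < σ * p.2.2 then cc W p q else 0

theorem cl_gS (hW : W ^ 2 + W + 1 = 0) (σ : ℝ) (p q : ℂ × ℂ × ℝ) :
    cl σ W (gS p) (gS q) = -W * cl σ W p q := by
  have hs : (gS p).2.2 = p.2.2 := rfl
  simp only [cl, cc, ra_gS, eta0_gS hW, eta1_gS hW, hs]
  split_ifs <;> ring

/-- A scale below which the geometry is under control. -/
theorem exists_scale (hW : W ^ 2 + W + 1 = 0) : ∃ ε > 0, ∀ p ∈ Sig, ∀ q ∈ Sig, dist p q < ε →
    |ra p - ra q| < 1 / 4 ∧ |p.2.2 - q.2.2| < 1 / 2 ∧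
    (1 / 4 ≤ ra p → ra p ≤ 3 / 4 → 1 / 4 ≤ ra q → ra q ≤ 3 / 4 →
      eta1 W q - eta1 W p = eta0 W q - eta0 W p) ∧
    (ra p ≤ 3 / 4 → ra q ≤ 3 / 4 → |p.2.2| ≤ 1 → |q.2.2| ≤ 1 → eta0 W q = eta0 W p) ∧
    (1 / 4 ≤ ra p → 1 / 4 ≤ ra q → |p.2.2| ≤ 1 → |q.2.2| ≤ 1 → eta1 W q = eta1 W p) := by
  have hcs : Continuous fun p : ℂ × ℂ × ℝ => p.2.2 := by fun_prop
  obtain ⟨e1, he1, H1⟩ := Metric.uniformContinuousOn_iff.1
    (isCompact_Sig.uniformContinuousOn_of_continuous continuous_ra.continuousOn) (1 / 4)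
    (by norm_num)
  obtain ⟨e2, he2, H2⟩ := Metric.uniformContinuousOn_iff.1
    (isCompact_Sig.uniformContinuousOn_of_continuous hcs.continuousOn) (1 / 2) (by norm_num)
  have K1 : IsCompact (Sig ∩ {p | 1 / 4 ≤ ra p ∧ ra p ≤ 3 / 4}) :=
    isCompact_Sig.inter_right ((isClosed_le continuous_const continuous_ra).inter
      (isClosed_le continuous_ra continuous_const))
  have K2 : IsCompact (Sig ∩ {p | ra p ≤ 3 / 4 ∧ |p.2.2| ≤ 1}) :=
    isCompact_Sig.inter_right ((isClosed_le continuous_ra continuous_const).inter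
      (isClosed_le hcs.abs continuous_const))
  have K3 : IsCompact (Sig ∩ {p | 1 / 4 ≤ ra p ∧ |p.2.2| ≤ 1}) :=
    isCompact_Sig.inter_right ((isClosed_le continuous_const continuous_ra).inter
      (isClosed_le hcs.abs continuous_const))
  obtain ⟨e3, he3, H3⟩ := uniform_of_locally K1
    (fun p => sg k p.1.re * kap W p.2.1) (fun p hp => by
      filter_upwards [eventually_sg (k := k) (Complex.continuous_re.comp continuous_fst)
        (re_ne (by linarith [hp.2.1])) _, eventually_kap (W := W) hp.1 (by linarith [hp.2.2]) _]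
        with q a b
      simp only [Function.comp_apply] at a
      rw [a, b])
  obtain ⟨e4, he4, H4⟩ := uniform_of_locally K2 (eta0 W) (fun p hp =>
    eventually_eta0 hp.1 hp.2.1 (by nlinarith [hp.2.2, abs_nonneg p.2.2, sq_abs p.2.2]) _)
  obtain ⟨e5, he5, H5⟩ := uniform_of_locally K3 (eta1 W) (fun p hp =>
    eventually_eta1 hp.1 hp.2.1 (by nlinarith [hp.2.2, abs_nonneg p.2.2, sq_abs p.2.2]) _)
  refine ⟨min e1 (min e2 (min e3 (min e4 e5))), by positivity, fun p hp q hq hpq => ?_⟩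
  simp only [lt_min_iff] at hpq
  obtain ⟨h1, h2, h3, h4, h5⟩ := hpq
  refine ⟨H1 p hp q hq h1, H2 p hp q hq h2, fun a b c d => ?_, fun a b c d => ?_,
    fun a b c d => ?_⟩
  · have E := H3 p ⟨hp, a, b⟩ q ⟨hq, c, d⟩ h3
    have Ep := eta1_sub_eta0 hW hp (by linarith) (by linarith)
    have Eq := eta1_sub_eta0 hW hq (by linarith) (by linarith)
    rw [← E] at Eq
    linear_combination Eq - Ep
  · exact (H4 p ⟨hp, a, c⟩ q ⟨hq, b, d⟩ h4).symm
  · exact (H5 p ⟨hp, a, c⟩ q ⟨hq, b, d⟩ h5).symm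

/-- `cl σ W` is a cocycle on small triples, for `σ = ±1`. -/
theorem cl_cocycle (hW : W ^ 2 + W + 1 = 0) {σ : ℝ} (hσ : |σ| = 1) :
    ∃ ε > 0, ∀ p ∈ Sig, ∀ q ∈ Sig, ∀ r ∈ Sig, dist p q < ε → dist p r < ε → dist q r < ε →
      cl σ W q r - cl σ W p r + cl σ W p q = 0 := by
  obtain ⟨ε, hε, H⟩ := exists_scale (k := k) hW
  refine ⟨ε, hε, fun p hp q hq r hr hpq hpr hqr => ?_⟩
  obtain ⟨a1, b1, c1, d1, f1⟩ := H p hp q hq hpq
  obtain ⟨a2, b2, c2, d2, f2⟩ := H p hp r hr hpr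
  obtain ⟨a3, b3, c3, d3, f3⟩ := H q hq r hr hqr
  rw [abs_lt] at a1 b1 a2 b2 a3 b3
  -- `cc` is additive on this triple
  have add : cc W q r - cc W p r + cc W p q = 0 := by
    simp only [cc]
    by_cases hp' : ra p < 1 / 2 <;> by_cases hq' : ra q < 1 / 2
    · rw [if_pos hp', if_pos hp', if_pos hq']; ring
    · rw [if_pos hp', if_pos hp', if_neg hq']
      rw [c3 (by linarith) (by linarith) (by linarith) (by linarith)]; ring
    · rw [if_neg hp', if_neg hp', if_pos hq']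
      rw [← c3 (by linarith) (by linarith) (by linarith) (by linarith)]; ring
    · rw [if_neg hp', if_neg hp', if_neg hq']; ring
  -- `cc` vanishes when `|s| ≤ 1`
  have van : ∀ x ∈ Sig, ∀ y ∈ Sig, dist x y < ε → |x.2.2| ≤ 1 → |y.2.2| ≤ 1 → cc W x y = 0 := by
    intro x hx y hy hxy sx sy
    obtain ⟨a, b, c, d, f⟩ := H x hx y hy hxy
    rw [abs_lt] at a
    simp only [cc]
    split_ifs with h
    · rw [d (by linarith) (by linarith) sx sy, sub_self]
    · rw [f (by linarith) (by linarith) sx sy, sub_self]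
  have hσ' : σ = 1 ∨ σ = -1 := by
    rcases eq_or_eq_neg_of_abs_eq hσ with h | h <;> simp [h]
  by_cases hp' : 0 < σ * p.2.2 <;> by_cases hq' : 0 < σ * q.2.2
  · rw [cl, cl, cl, if_pos hp', if_pos hp', if_pos hq']; exact add
  · have sp : |p.2.2| ≤ 1 := by
      rw [abs_le]; rcases hσ' with rfl | rfl <;> constructor <;> linarith
    have sq : |q.2.2| ≤ 1 := by
      rw [abs_le]; rcases hσ' with rfl | rfl <;> constructor <;> linarith
    have sr : |r.2.2| ≤ 1 := by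
      rw [abs_le]; rcases hσ' with rfl | rfl <;> constructor <;> linarith
    rw [cl, cl, cl, if_pos hp', if_pos hp', if_neg hq', van p hp r hr hpr sp sr,
      van p hp q hq hpq sp sq]; ring
  · have sp : |p.2.2| ≤ 1 := by
      rw [abs_le]; rcases hσ' with rfl | rfl <;> constructor <;> linarith
    have sq : |q.2.2| ≤ 1 := by
      rw [abs_le]; rcases hσ' with rfl | rfl <;> constructor <;> linarith
    have sr : |r.2.2| ≤ 1 := by
      rw [abs_le]; rcases hσ' with rfl | rfl <;> constructor <;> linarith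
    rw [cl, cl, cl, if_neg hp', if_neg hp', if_pos hq', van q hq r hr hqr sq sr]; ring
  · rw [cl, cl, cl, if_neg hp', if_neg hp', if_neg hq']; ring

/-- The test path: the edge joining the two branch points in the half `0 < σ s`. -/
noncomputable def yp (σ : ℝ) (t : ℝ) : ℂ × ℂ × ℝ :=
  ((t : ℂ), (((1 - t ^ 2) ^ ((1 : ℝ) / 3) : ℝ) : ℂ), σ * √(4 - (2 * t ^ 2 - 1) ^ 2))

theorem yp_cube {t : ℝ} (h0 : 0 ≤ t) (h1 : t ≤ 1) : ((1 - t ^ 2) ^ ((1 : ℝ) / 3) : ℝ) ^ 3 = 1 - t ^ 2 := by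
  have : 0 ≤ 1 - t ^ 2 := by nlinarith
  rw [← Real.rpow_natCast, ← Real.rpow_mul this]
  norm_num

theorem yp_rad {t : ℝ} (h0 : 0 ≤ t) (h1 : t ≤ 1) : 3 ≤ 4 - (2 * t ^ 2 - 1) ^ 2 := by
  nlinarith [mul_nonneg h0 (sub_nonneg.2 h1), mul_nonneg h0 h0, mul_nonneg (mul_nonneg h0 h0)
    (mul_nonneg (sub_nonneg.2 h1) (add_nonneg zero_le_one h0))]

theorem yp_mem {σ : ℝ} (hσ : |σ| = 1) {t : ℝ} (h0 : 0 ≤ t) (h1 : t ≤ 1) : yp σ t ∈ Sig := by
  have hc := yp_cube h0 h1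
  have hr := yp_rad h0 h1
  have hσ2 : σ ^ 2 = 1 := by rw [← sq_abs, hσ]; norm_num
  have hcc : (((1 - t ^ 2) ^ ((1 : ℝ) / 3) : ℝ) : ℂ) ^ 3 = ((1 - t ^ 2 : ℝ) : ℂ) := by
    rw [← Complex.ofReal_pow, hc]
  refine ⟨?_, ?_⟩
  · simp only [yp]
    rw [hcc]; push_cast; ring
  · simp only [yp]
    rw [hcc, ← Complex.ofReal_pow, ← Complex.ofReal_sub, Complex.normSq_ofReal, mul_pow, hσ2,
      Real.sq_sqrt (by linarith)]
    ring

theorem continuous_yp (σ : ℝ) : Continuous (yp σ) := by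
  unfold yp
  refine Continuous.prodMk (by fun_prop) (Continuous.prodMk ?_ (by fun_prop))
  exact Complex.continuous_ofReal.comp ((by fun_prop : Continuous fun t : ℝ => 1 - t ^ 2).rpow_const
    (fun _ => Or.inr (by norm_num)))

theorem ra_yp (σ t : ℝ) : ra (yp σ t) = t ^ 2 := by
  rw [ra_eq]; simp [yp]

theorem s_yp_pos {t : ℝ} (h0 : 0 ≤ t) (h1 : t ≤ 1) :
    0 < √(4 - (2 * t ^ 2 - 1) ^ 2) := Real.sqrt_pos.2 (by linarith [yp_rad h0 h1])

theorem eta0_yp (σ t : ℝ) : eta0 W (yp σ t) = 0 := by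
  simp [eta0, yp, sg_zero]

/-- The second potential on the test path. -/
theorem eta1_yp (hW : W ^ 2 + W + 1 = 0) (σ : ℝ) {t : ℝ} (h0 : 0 < t) (h1 : t < 1) :
    eta1 W (yp σ t) = -2 * W := by
  have hx : (0 : ℝ) < (1 - t ^ 2) ^ ((1 : ℝ) / 3) := Real.rpow_pos_of_pos (by nlinarith) _
  have h3 := sq3_pos
  have a0 : l0 (((1 - t ^ 2) ^ ((1 : ℝ) / 3) : ℝ) : ℂ) = 0 := by simp [l0]
  have a1 : l1 (((1 - t ^ 2) ^ ((1 : ℝ) / 3) : ℝ) : ℂ) < 0 := by
    simp only [l1, Complex.ofReal_re, Complex.ofReal_im]; nlinarith [mul_pos h3 hx]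
  have a2 : 0 < l2 (((1 - t ^ 2) ^ ((1 : ℝ) / 3) : ℝ) : ℂ) := by
    simp only [l2, Complex.ofReal_re, Complex.ofReal_im]; nlinarith [mul_pos h3 hx]
  have e : sg k (yp σ t).1.re = 1 := sg_pos (by simpa [yp] using h0)
  have z : H2 k 0 = 1 := by simp [H2, sg_zero]
  rw [eta1, e, rho, yp]
  simp only
  rw [a0, neg_zero, z, H2_pos (neg_pos.2 a1), H2_neg a1, H2_pos a2]
  linear_combination 2 * hW

theorem eta1_yp_one (hW : W ^ 2 + W + 1 = 0) (σ : ℝ) : eta1 W (yp σ 1) = 0 := by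
  have : (yp σ 1).2.1 = 0 := by simp [yp]
  rw [eta1, this, rho_zero hW, mul_zero]

/-- The test functional, on two-point functions. -/
noncomputable def TT (σ : ℝ) (N : ℕ) (c : (ℂ × ℂ × ℝ) → (ℂ × ℂ × ℝ) → k) : k :=
  ∑ m ∈ Finset.range N, c (yp σ (m / N)) (yp σ ((m + 1 : ℕ) / N))

theorem TT_cl_self (hW : W ^ 2 + W + 1 = 0) {σ : ℝ} (hσ : |σ| = 1) {N : ℕ} (hN : 4 ≤ N) :
    TT σ N (cl σ W) = 2 * W := by
  have hσ2 : σ * σ = 1 := by rw [← abs_mul_abs_self, hσ]; norm_num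
  have hN0 : (0 : ℝ) < N := by exact_mod_cast (by omega : 0 < N)
  have hcl : ∀ m < N, ∀ q, cl σ W (yp σ (m / N)) q = cc W (yp σ (m / N)) q := by
    intro m hm q
    have h0 : (0 : ℝ) ≤ m / N := by positivity
    have h1 : (m : ℝ) / N ≤ 1 := by rw [div_le_one hN0]; exact_mod_cast hm.le
    rw [cl, if_pos]
    have : σ * (yp σ (m / N)).2.2 = (σ * σ) * √(4 - (2 * (m / N : ℝ) ^ 2 - 1) ^ 2) := by
      simp only [yp]; ring
    rw [this, hσ2, one_mul]
    exact s_yp_pos h0 h1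
  rw [TT, Finset.sum_eq_single (N - 1)]
  · have hm : N - 1 < N := by omega
    have hcast : ((N - 1 : ℕ) : ℝ) = N - 1 := by
      rw [Nat.cast_sub (by omega)]; simp
    have h4 : (4 : ℝ) ≤ N := by exact_mod_cast hN
    have ht0 : 0 < ((N - 1 : ℕ) : ℝ) / N := by
      rw [hcast]; apply div_pos _ hN0; linarith
    have ht1 : ((N - 1 : ℕ) : ℝ) / N < 1 := by
      rw [hcast, div_lt_one hN0]; linarith
    have hone : ((N - 1 + 1 : ℕ) : ℝ) / N = 1 := by
      rw [Nat.sub_add_cancel (by omega)]; exact div_self hN0.ne'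
    rw [hcl _ hm, cc, if_neg, hone, eta1_yp_one hW, eta1_yp hW σ ht0 ht1]
    · ring
    · rw [ra_yp, hcast, not_lt, div_pow, div_le_div_iff₀ (by norm_num) (by positivity)]
      nlinarith
  · intro m hm hne
    rw [Finset.mem_range] at hm
    have h0 : (0 : ℝ) ≤ m / N := by positivity
    have hm1 : m + 1 < N := by omega
    have h1 : ((m + 1 : ℕ) : ℝ) / N < 1 := by
      rw [div_lt_one hN0]; exact_mod_cast hm1
    have h01 : (0 : ℝ) < ((m + 1 : ℕ) : ℝ) / N := by positivity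
    have h2 : (m : ℝ) / N < 1 := by
      rw [div_lt_one hN0]; exact_mod_cast hm
    rw [hcl _ hm, cc]
    split_ifs with h
    · rw [eta0_yp, eta0_yp, sub_self]
    · have h00 : (0 : ℝ) < m / N := by
        rcases h0.lt_or_eq with h' | h'
        · exact h'
        · exfalso; rw [ra_yp, ← h'] at h; norm_num at h
      rw [eta1_yp hW σ h01 h1, eta1_yp hW σ h00 h2, sub_self]
  · intro h; exact absurd (Finset.mem_range.2 (by omega)) h

theorem TT_cl_neg {σ : ℝ} (hσ : |σ| = 1) (N : ℕ) :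
    TT σ N (cl (-σ) W) = 0 := by
  have hσ2 : σ * σ = 1 := by rw [← abs_mul_abs_self, hσ]; norm_num
  refine Finset.sum_eq_zero fun m hm => ?_
  rw [Finset.mem_range] at hm
  have hN : (0 : ℝ) < N := by exact_mod_cast (Nat.zero_le m).trans_lt hm
  have h0 : (0 : ℝ) ≤ m / N := by positivity
  have h1 : (m : ℝ) / N ≤ 1 := by rw [div_le_one hN]; exact_mod_cast hm.le
  rw [cl, if_neg]
  have : -σ * (yp σ (m / N)).2.2 = -(σ * σ) * √(4 - (2 * (m / N : ℝ) ^ 2 - 1) ^ 2) := by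
    simp only [yp]; ring
  rw [this, hσ2]
  have := s_yp_pos h0 h1
  linarith

/-- Both ends of the test path are fixed by a power of `gS`, so equivariant functions vanish
there. -/
theorem TT_coboundary (hW : W ^ 2 + W + 1 = 0) (h2 : (2 : k) ≠ 0) (h3 : (3 : k) ≠ 0) {σ : ℝ}
    (hσ : |σ| = 1) {β : ℂ × ℂ × ℝ → k} (hβ : ∀ p ∈ Sig, β (gS p) = -W * β p) {N : ℕ} (hN : 0 < N) :
    TT σ N (fun p q => β q - β p) = 0 := by
  have hN0 : (N : ℝ) ≠ 0 := by exact_mod_cast hN.ne'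
  have e0 : gS (gS (gS (yp σ 0))) = yp σ 0 := by
    have h := om_cube
    have : om * (om * om) = 1 := by rw [← h]; ring
    simp [yp, gS, this]
  have e1 : gS (gS (yp σ 1)) = yp σ 1 := by simp [yp, gS]
  have m0 := yp_mem hσ le_rfl zero_le_one
  have m1 := yp_mem hσ zero_le_one le_rfl
  have b0 : β (yp σ 0) = 0 := by
    have h := hβ _ (gS_mem (gS_mem m0))
    rw [e0, hβ _ (gS_mem m0), hβ _ m0] at h
    have hW3 := W_cube hW
    have : 2 * β (yp σ 0) = 0 := by linear_combination h - β (yp σ 0) * hW3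
    exact (mul_eq_zero.1 this).resolve_left h2
  have b1 : β (yp σ 1) = 0 := by
    have h := hβ _ (gS_mem m1)
    rw [e1, hβ _ m1] at h
    have : 3 * β (yp σ 1) = 0 := by
      linear_combination (1 - W) * h + (β (yp σ 1) * (2 - W)) * hW
    exact (mul_eq_zero.1 this).resolve_left h3
  have := Finset.sum_range_sub (fun m : ℕ => β (yp σ ((m : ℕ) / N))) N
  rw [TT, this]
  simp only [Nat.cast_zero, zero_div]
  rw [div_self hN0, b0, b1, sub_zero]

theorem exists_fine (σ : ℝ) {ε : ℝ} (hε : 0 < ε) : ∃ N₀ : ℕ, ∀ N ≥ N₀, ∀ m < N,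
    dist (yp σ ((m : ℕ) / N)) (yp σ ((m + 1 : ℕ) / N)) < ε := by
  obtain ⟨δ, hδ, H⟩ := Metric.uniformContinuousOn_iff.1
    (isCompact_Icc.uniformContinuousOn_of_continuous (continuous_yp σ).continuousOn
      (s := Icc (0 : ℝ) 1)) ε hε
  obtain ⟨N₀, hN₀⟩ := exists_nat_gt (1 / δ)
  refine ⟨N₀ + 1, fun N hN m hm => H _ ?_ _ ?_ ?_⟩
  · have : (0 : ℝ) < N := by exact_mod_cast (by omega : 0 < N)
    exact ⟨by positivity, by rw [div_le_one this]; exact_mod_cast hm.le⟩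
  · have : (0 : ℝ) < N := by exact_mod_cast (by omega : 0 < N)
    exact ⟨by positivity, by rw [div_le_one this]; exact_mod_cast hm⟩
  · have hNpos : (0 : ℝ) < N := by exact_mod_cast (by omega : 0 < N)
    have h1 : 1 / δ < N := hN₀.trans_le (by exact_mod_cast (by omega : N₀ ≤ N))
    rw [Real.dist_eq]
    have : (m : ℝ) / N - ((m + 1 : ℕ) : ℝ) / N = -(1 / N) := by push_cast; field_simp; ring
    rw [this, abs_neg, abs_of_pos (by positivity)]
    rw [div_lt_iff₀ hδ] at h1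
    rw [div_lt_iff₀ hNpos]; linarith

end Vale.Agent.P265.Top
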