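import Vale.Agent.P265.H423.SigRank
import Mathlib.Data.ZMod.Basic

/-!
# The inverse automorphism of the surface, and the statement over `ZMod 7`
-/

open Set Matrix

namespace Vale.Agent.P265.Top

open Vale.Agent.P265.AS

/-- The inverse of `gS`. -/
noncomputable def gSi (p : ℂ × ℂ × ℝ) : ℂ × ℂ × ℝ := (-p.1, om ^ 2 * p.2.1, p.2.2)

/-- Complex conjugation. -/
noncomputable def cS (p : ℂ × ℂ × ℝ) : ℂ × ℂ × ℝ :=
  (starRingEnd ℂ p.1, starRingEnd ℂ p.2.1, p.2.2)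

theorem conj_om : starRingEnd ℂ om = om ^ 2 := by
  rw [om_sq]; apply Complex.ext <;> simp [om]

theorem conj_om_sq : starRingEnd ℂ (om ^ 2) = om := by
  rw [← conj_om, Complex.conj_conj]

theorem cS_cS (p : ℂ × ℂ × ℝ) : cS (cS p) = p := by simp [cS]

theorem cS_mem {p : ℂ × ℂ × ℝ} (hp : p ∈ Sig) : cS p ∈ Sig := by
  obtain ⟨h1, h2⟩ := hp
  constructor
  · have := congrArg (starRingEnd ℂ) h1
    simpa [cS] using this
  · simp only [cS]
    rw [← map_pow, ← map_pow, ← map_sub, Complex.normSq_conj]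
    exact h2

theorem cS_gS (p : ℂ × ℂ × ℝ) : cS (gS p) = gSi (cS p) := by
  simp [cS, gS, gSi, conj_om]

theorem cS_gSi (p : ℂ × ℂ × ℝ) : cS (gSi p) = gS (cS p) := by
  simp only [cS, gSi, gS, map_mul, conj_om_sq, map_neg]

theorem dist_cS (p q : ℂ × ℂ × ℝ) : dist (cS p) (cS q) = dist p q := by
  simp only [cS, Prod.dist_eq, Complex.dist_conj_conj]

theorem hh_gSi {k : Type} [Field k] (χ : k) (j : ℕ) : hh gS χ Sig ∅ j ≤ hh gSi χ Sig ∅ j := by
  refine hh_le_of_retract (φ := cS) (ψ := cS) (H := fun _ p => p)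
    ⟨fun _ h => cS_mem h, fun _ h => h.elim, fun p _ => cS_gS p, fun ε hε =>
      ⟨ε, hε, fun p _ q _ h => by rwa [dist_cS]⟩⟩
    ⟨fun _ h => cS_mem h, fun _ h => h.elim, fun p _ => cS_gSi p, fun ε hε =>
      ⟨ε, hε, fun p _ q _ h => by rwa [dist_cS]⟩⟩
    ⟨fun _ _ _ h => h, fun _ _ _ h => h.elim, fun _ _ _ _ => rfl, fun ε hε =>
      ⟨ε, hε, fun _ _ _ _ p _ q _ _ h => h⟩⟩ (empty_subset _) (empty_subset _)
    (fun _ _ => rfl) (fun p _ => (cS_cS p).symm) χ j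

theorem fact7 : Fact (Nat.Prime 7) := ⟨by norm_num⟩

attribute [local instance] fact7

/-- Both forms over `ZMod 7`, with the primitive sixth root of unity `3`. -/
theorem two_le_hh_Sig7 : 2 ≤ hh gSi (3 : ZMod 7) Sig ∅ 1 := by
  have h : 2 ≤ hh gS (-(4 : ZMod 7)) Sig ∅ 1 :=
    two_le_hh_Sig (by decide) (by decide) (by decide)
  have e : -(4 : ZMod 7) = 3 := by decide
  rw [e] at h
  exact h.trans (hh_gSi _ _)

end Vale.Agent.P265.Top
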