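import Vale.Agent.P265.H336.Htpy
import Vale.Agent.P265.H423.Cocycle

/-!
# The equivariant cohomology of the surface `Sig` in degree one has rank at least two
-/

open Set Matrix

namespace Vale.Agent.P265.Top

open Vale.Agent.P265.AS

section Rank

variable {k : Type} [Field k]

theorem qr_top_bot (V : Type) [AddCommGroup V] [Module k V] :
    qr (⊤ : Submodule k V) ⊥ = Module.rank k V := by
  have e : (⊥ : Submodule k V).comap (⊤ : Submodule k V).subtype = ⊥ := by
    rw [Submodule.comap_bot, Submodule.ker_subtype]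
  rw [qr, e, (Submodule.quotEquivOfEqBot _ rfl).rank_eq, rank_top]

/-- Two classes detected by two functionals in triangular position. -/
theorem two_le_qr {F : Type} [AddCommGroup F] [Module k F] {Z B : Submodule k F} {c₁ c₂ : F}
    (h₁ : c₁ ∈ Z) (h₂ : c₂ ∈ Z) (h : ∀ a b : k, a • c₁ + b • c₂ ∈ B → a = 0 ∧ b = 0) :
    2 ≤ qr Z B := by
  let T : (k × k) →ₗ[k] F := (LinearMap.toSpanSingleton k F c₁).coprod
    (LinearMap.toSpanSingleton k F c₂)
  have hT : ∀ v, T v = v.1 • c₁ + v.2 • c₂ := fun v => rfl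
  have h1 : qr (⊤ : Submodule k (k × k)) ⊥ ≤ qr Z B := by
    refine qr_le_of_inj T (fun v _ => ?_) (fun v _ hv => ?_)
    · rw [hT]; exact Z.add_mem (Z.smul_mem _ h₁) (Z.smul_mem _ h₂)
    · rw [hT] at hv
      obtain ⟨a, b⟩ := h _ _ hv
      rw [Submodule.mem_bot]
      exact Prod.ext a b
  rw [qr_top_bot, rank_prod'] at h1
  rw [CommSemiring.rank_self k] at h1
  rwa [one_add_one_eq_two] at h1

end Rank

section Zero

variable {k : Type} [Field k] {E : Type} [PseudoMetricSpace E]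

/-- The constant function gives a class in degree zero. -/
theorem one_le_hh_zero (g : E → E) {X : Set E} (hX : X.Nonempty) :
    1 ≤ hh g (1 : k) X ∅ 0 := by
  obtain ⟨x, hx⟩ := hX
  let T : k →ₗ[k] ((Fin 1 → E) → k) := LinearMap.toSpanSingleton k _ (fun _ => 1)
  have hT : ∀ a y, T a y = a := fun a y => by
    simp [T, LinearMap.toSpanSingleton_apply]
  have h1 : qr (⊤ : Submodule k k) ⊥ ≤ hh g (1 : k) X ∅ 0 := by
    refine qr_le_of_inj T (fun a _ => ?_) (fun a _ ha => ?_)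
    · refine ⟨fun y _ => by rw [hT, hT, one_mul], 1, one_pos, fun y _ => ?_, fun y hy => ?_⟩
      · rw [d_succ_apply, hT, d_zero_apply, hT, sub_self]
      · exact absurd (hy.1 0) (Set.notMem_empty _)
    · obtain ⟨b, -, ε, hε, hb, hb'⟩ := ha
      have e1 := hb ![x] ⟨fun i => by simpa using hx, fun i j => by
        fin_cases i; fin_cases j; simpa using hε⟩
      rw [hT, d_zero_apply, hb' _ ⟨fun i => i.elim0, fun i => i.elim0⟩] at e1
      simpa using e1
  rwa [qr_top_bot, CommSemiring.rank_self k] at h1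

end Zero

section Sig

variable {k : Type} [Field k] {W : k}

/-- The cochain of `cl σ W`. -/
noncomputable def cw (σ : ℝ) (W : k) (x : Fin 2 → ℂ × ℂ × ℝ) : k := cl σ W (x 0) (x 1)

theorem d_two {E : Type} (c : (Fin 2 → E) → k) (x : Fin 3 → E) :
    d c x = c ![x 1, x 2] - (c ![x 0, x 2] - c ![x 0, x 1]) := by
  have e1 : vecTail x = ![x 1, x 2] := by
    funext i; fin_cases i <;> rfl
  rw [d_succ_apply, d_succ_apply, d_zero_apply, e1]
  congr 2

theorem d_one {E : Type} (c : (Fin 1 → E) → k) (x : Fin 2 → E) :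
    d c x = c ![x 1] - c ![x 0] := by
  rw [d_succ_apply, d_zero_apply]
  congr 2
  · funext i; fin_cases i; rfl
  · funext i; fin_cases i; rfl

theorem cw_mem (hW : W ^ 2 + W + 1 = 0) {σ : ℝ} (hσ : |σ| = 1) :
    cw σ W ∈ Zs gS (-W) Sig ∅ 1 := by
  obtain ⟨ε, hε, H⟩ := cl_cocycle (k := k) hW hσ
  refine ⟨fun x _ => cl_gS hW σ _ _, ε, hε, fun x hx => ?_, fun x hx => ?_⟩
  · rw [d_two]
    have := H _ (hx.1 0) _ (hx.1 1) _ (hx.1 2) (hx.2 _ _) (hx.2 _ _) (hx.2 _ _)
    simp only [cw, cons_val_zero, cons_val_one]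
    linear_combination this
  · exact absurd (hx.1 0) (Set.notMem_empty _)

theorem two_le_hh_Sig (hW : W ^ 2 + W + 1 = 0) (h2 : (2 : k) ≠ 0) (h3 : (3 : k) ≠ 0) :
    2 ≤ hh gS (-W) Sig ∅ 1 := by
  have hσ1 : |(1 : ℝ)| = 1 := abs_one
  have hσ2 : |(-1 : ℝ)| = 1 := by norm_num
  have hW0 : W ≠ 0 := by rintro rfl; simp at hW
  refine two_le_qr (cw_mem hW hσ1) (cw_mem hW hσ2) ?_
  rintro a b ⟨β, hβ, ε, hε, h1, -⟩
  -- the test functionals
  have key : ∀ σ : ℝ, |σ| = 1 → ∀ c : (Fin 2 → ℂ × ℂ × ℝ) → k, (∀ x, Sm Sig ε x → c x = d β x) →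
      ∃ N ≥ 4, TT σ N (fun p q => c ![p, q]) = 0 := by
    intro σ hσ c hc
    obtain ⟨N₀, hN₀⟩ := exists_fine σ hε
    refine ⟨max 4 N₀, le_max_left _ _, ?_⟩
    have hN : 0 < max 4 N₀ := lt_of_lt_of_le (by norm_num) (le_max_left _ _)
    have hNr : (0 : ℝ) < (max 4 N₀ : ℕ) := by exact_mod_cast hN
    rw [← TT_coboundary hW h2 h3 hσ (β := fun p => β ![p]) (N := max 4 N₀) ?_ hN]
    · refine Finset.sum_congr rfl fun m hm => ?_
      rw [Finset.mem_range] at hm
      have hd := hN₀ _ (le_max_right 4 N₀) m hm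
      have a0 : (0 : ℝ) ≤ (m : ℕ) / (max 4 N₀ : ℕ) := by positivity
      have a1 : ((m : ℕ) : ℝ) / (max 4 N₀ : ℕ) ≤ 1 := by
        rw [div_le_one hNr]; exact_mod_cast hm.le
      have b0 : (0 : ℝ) ≤ (m + 1 : ℕ) / (max 4 N₀ : ℕ) := by positivity
      have b1 : ((m + 1 : ℕ) : ℝ) / (max 4 N₀ : ℕ) ≤ 1 := by
        rw [div_le_one hNr]; exact_mod_cast hm
      change c ![_, _] = _
      rw [hc, d_one]
      · rfl
      · refine ⟨fun i => ?_, fun i j => ?_⟩
        · fin_cases i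
          · exact yp_mem hσ a0 a1
          · exact yp_mem hσ b0 b1
        · fin_cases i <;> fin_cases j
          · simpa using hε
          · exact hd
          · simp only [Fin.mk_one, cons_val_one, Fin.zero_eta, cons_val_zero]
            rw [dist_comm]; exact hd
          · simpa using hε
    · intro p hp
      have := hβ ![p] (fun i => by simpa using hp)
      rw [← this]
      congr 1
      funext i; fin_cases i; rfl
  have hlin : ∀ (σ : ℝ) (N : ℕ), TT σ N (fun p q => (a • cw 1 W + b • cw (-1) W) ![p, q]) =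
      a * TT σ N (cl 1 W) + b * TT σ N (cl (-1) W) := by
    intro σ N
    simp only [TT, Finset.mul_sum, ← Finset.sum_add_distrib]
    rfl
  have h2W : 2 * W ≠ 0 := mul_ne_zero h2 hW0
  constructor
  · obtain ⟨N, hN, h⟩ := key 1 hσ1 _ h1
    rw [hlin, TT_cl_self hW hσ1 hN, TT_cl_neg hσ1 N, mul_zero, add_zero] at h
    exact (mul_eq_zero.1 h).resolve_right h2W
  · obtain ⟨N, hN, h⟩ := key (-1) hσ2 _ h1
    have e := TT_cl_neg (k := k) (W := W) hσ2 N
    rw [neg_neg] at e
    rw [hlin, TT_cl_self hW hσ2 hN, e, mul_zero, zero_add] at h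
    exact (mul_eq_zero.1 h).resolve_right h2W

end Sig

end Vale.Agent.P265.Top
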