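import Mathlib

/-!
# Sign functions with values in a field, and the two equivariant functions on `ℂ`

`sg t` is the sign of `t` in a field `k`.  With `W ^ 2 + W + 1 = 0` in `k` and
`ω = e^{2πi/3}`, the functions `kap` and `rho` on `ℂ` satisfy `f (ω z) = W * f z`.
-/

namespace Vale.Agent.P265.Top

open Set Filter Topology

section Signs

variable {k : Type*} [Field k]

/-- The sign of a real number, as an element of the field `k`. -/
noncomputable def sg (k : Type*) [Field k] (t : ℝ) : k := if 0 < t then 1 else if t < 0 then -1 else 0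

theorem sg_pos {t : ℝ} (h : 0 < t) : sg k t = 1 := if_pos h

theorem sg_neg {t : ℝ} (h : t < 0) : sg k t = -1 := by
  rw [sg, if_neg (not_lt.2 h.le), if_pos h]

theorem sg_zero : sg k 0 = 0 := by simp [sg]

theorem sg_neg' (t : ℝ) : sg k (-t) = - sg k t := by
  rcases lt_trichotomy t 0 with h | h | h
  · rw [sg_neg h, sg_pos (by linarith)]; ring
  · subst h; simp [sg_zero]
  · rw [sg_pos h, sg_neg (by linarith)]

theorem sg_mul (s t : ℝ) : sg k (s * t) = sg k s * sg k t := by
  rcases lt_trichotomy t 0 with h | h | h <;> rcases lt_trichotomy s 0 with h' | h' | h'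
  · rw [sg_neg h, sg_neg h', sg_pos (mul_pos_of_neg_of_neg h' h)]; ring
  · subst h'; simp [sg_zero]
  · rw [sg_neg h, sg_pos h', sg_neg (mul_neg_of_pos_of_neg h' h)]; ring
  · subst h; simp [sg_zero]
  · subst h; simp [sg_zero]
  · subst h; simp [sg_zero]
  · rw [sg_pos h, sg_neg h', sg_neg (mul_neg_of_neg_of_pos h' h)]; ring
  · subst h'; simp [sg_zero]
  · rw [sg_pos h, sg_pos h', sg_pos (mul_pos h' h)]; ring

theorem sg_sq {t : ℝ} (h : t ≠ 0) : sg k t * sg k t = 1 := by
  rcases lt_or_gt_of_ne h with h | h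
  · rw [sg_neg h]; ring
  · rw [sg_pos h]; ring

/-- Twice the Heaviside function. -/
noncomputable def H2 (k : Type*) [Field k] (t : ℝ) : k := 1 + sg k t

theorem H2_pos {t : ℝ} (h : 0 < t) : H2 k t = 2 := by rw [H2, sg_pos h]; ring

theorem H2_neg {t : ℝ} (h : t < 0) : H2 k t = 0 := by rw [H2, sg_neg h]; ring

theorem H2_neg' (t : ℝ) : H2 k (-t) = 1 - sg k t := by rw [H2, sg_neg']; ring

/-- The indicator function of the positive half line. -/
noncomputable def ip (k : Type*) [Field k] (t : ℝ) : k := if 0 < t then 1 else 0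

theorem ip_pos {t : ℝ} (h : 0 < t) : ip k t = 1 := if_pos h

theorem ip_neg {t : ℝ} (h : t ≤ 0) : ip k t = 0 := if_neg (not_lt.2 h)

end Signs

section Lin

/-- The real numbers `Re (ω^{-j} z)`, `j = 0, 1, 2`. -/
noncomputable def r0 (z : ℂ) : ℝ := z.re
noncomputable def r1 (z : ℂ) : ℝ := -z.re / 2 + √3 / 2 * z.im
noncomputable def r2 (z : ℂ) : ℝ := -z.re / 2 - √3 / 2 * z.im

/-- The real numbers `Im (ω^{-j} z)`, `j = 0, 1, 2`. -/
noncomputable def l0 (z : ℂ) : ℝ := z.im
noncomputable def l1 (z : ℂ) : ℝ := -z.im / 2 - √3 / 2 * z.re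
noncomputable def l2 (z : ℂ) : ℝ := -z.im / 2 + √3 / 2 * z.re

theorem sq3 : √3 * √3 = (3 : ℝ) := Real.mul_self_sqrt (by norm_num)

theorem sq3_pos : (0 : ℝ) < √3 := Real.sqrt_pos.2 (by norm_num)

theorem re_cube (z : ℂ) : (z ^ 3).re = 4 * (r0 z * r1 z * r2 z) := by
  have h := sq3
  simp only [pow_succ, pow_zero, one_mul, Complex.mul_re, Complex.mul_im, r0, r1, r2]
  linear_combination (z.re * z.im ^ 2) * h

theorem im_cube (z : ℂ) : (z ^ 3).im = -4 * (l0 z * l1 z * l2 z) := by
  have h := sq3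
  simp only [pow_succ, pow_zero, one_mul, Complex.mul_re, Complex.mul_im, l0, l1, l2]
  linear_combination (-(z.re ^ 2 * z.im)) * h

theorem r_sum (z : ℂ) : r0 z + r1 z + r2 z = 0 := by simp only [r0, r1, r2]; ring

theorem l_sum (z : ℂ) : l0 z + l1 z + l2 z = 0 := by simp only [l0, l1, l2]; ring

theorem r0_eq (z : ℂ) : √3 * r0 z = l2 z - l1 z := by simp only [r0, l1, l2]; ring

theorem r1_eq (z : ℂ) : √3 * r1 z = l0 z - l2 z := by
  simp only [r1, l0, l2]; linear_combination (z.im / 2) * sq3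

theorem r2_eq (z : ℂ) : √3 * r2 z = l1 z - l0 z := by
  simp only [r2, l1, l0]; linear_combination (-z.im / 2) * sq3

/-- The primitive cube root of unity `e^{2πi/3}`. -/
noncomputable def om : ℂ := ⟨-1 / 2, √3 / 2⟩

theorem om_sq : om ^ 2 = ⟨-1 / 2, -(√3 / 2)⟩ := by
  apply Complex.ext
  · simp only [pow_two, Complex.mul_re, om]; linear_combination (-1/4) * sq3
  · simp only [pow_two, Complex.mul_im, om]; ring

theorem om_cube : om ^ 3 = 1 := by
  rw [pow_succ, om_sq]
  apply Complex.ext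
  · simp only [Complex.mul_re, om, Complex.one_re]; linear_combination (1/4) * sq3
  · simp only [Complex.mul_im, om, Complex.one_im]; ring

theorem r0_om (z : ℂ) : r0 (om * z) = r2 z := by
  simp only [r0, r2, Complex.mul_re, om]; ring

theorem r1_om (z : ℂ) : r1 (om * z) = r0 z := by
  simp only [r0, r1, Complex.mul_re, Complex.mul_im, om]; linear_combination (z.re / 4) * sq3

theorem r2_om (z : ℂ) : r2 (om * z) = r1 z := by
  simp only [r2, r1, Complex.mul_re, Complex.mul_im, om]; linear_combination (-z.re / 4) * sq3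

theorem l0_om (z : ℂ) : l0 (om * z) = l2 z := by
  simp only [l0, l2, Complex.mul_im, om]; ring

theorem l1_om (z : ℂ) : l1 (om * z) = l0 z := by
  simp only [l0, l1, Complex.mul_re, Complex.mul_im, om]; linear_combination (z.im / 4) * sq3

theorem l2_om (z : ℂ) : l2 (om * z) = l1 z := by
  simp only [l2, l1, Complex.mul_re, Complex.mul_im, om]; linear_combination (-z.im / 4) * sq3

end Lin

section KapRho

variable {k : Type*} [Field k] {W : k}

/-- On `{Re z³ > 0}`: the power `W ^ j`, `j` the number of the sector containing `z`. -/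
noncomputable def kap (W : k) (z : ℂ) : k := ip k (r0 z) + W * ip k (r1 z) + W ^ 2 * ip k (r2 z)

/-- The locally constant function off the three rays `z³ ≥ 0`. -/
noncomputable def rho (W : k) (z : ℂ) : k :=
  H2 k (l0 z) * H2 k (-l1 z) + W * (H2 k (l1 z) * H2 k (-l2 z)) +
    W ^ 2 * (H2 k (l2 z) * H2 k (-l0 z))

theorem W_cube (hW : W ^ 2 + W + 1 = 0) : W ^ 3 = 1 := by
  linear_combination (W - 1) * hW

theorem kap_om (hW : W ^ 2 + W + 1 = 0) (z : ℂ) : kap W (om * z) = W * kap W z := by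
  simp only [kap, r0_om, r1_om, r2_om]
  linear_combination (-(ip k (r2 z))) * W_cube hW

theorem rho_om (hW : W ^ 2 + W + 1 = 0) (z : ℂ) : rho W (om * z) = W * rho W z := by
  simp only [rho, l0_om, l1_om, l2_om]
  linear_combination (-(H2 k (l2 z) * H2 k (-l0 z))) * W_cube hW

theorem rho_zero (hW : W ^ 2 + W + 1 = 0) : rho W 0 = 0 := by
  simp only [rho, l0, l1, l2, Complex.zero_im, Complex.zero_re, H2, neg_zero, mul_zero, sub_zero,
    zero_div, add_zero, sg_zero]
  linear_combination hW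

/-- On the sector number `j`, `Im (ω^{-j} z)` is the only one of the `l`s of variable sign. -/
theorem sector0 {z : ℂ} (h1 : r1 z < 0) (h2 : r2 z < 0) : l1 z < 0 ∧ 0 < l2 z := by
  have e1 := r1_eq z; have e2 := r2_eq z; have e3 := l_sum z
  have p1 := mul_neg_of_pos_of_neg sq3_pos h1
  have p2 := mul_neg_of_pos_of_neg sq3_pos h2
  constructor <;> linarith

theorem sector1 {z : ℂ} (h0 : r0 z < 0) (h2 : r2 z < 0) : l2 z < 0 ∧ 0 < l0 z := by
  have e1 := r0_eq z; have e2 := r2_eq z; have e3 := l_sum z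
  have p1 := mul_neg_of_pos_of_neg sq3_pos h0
  have p2 := mul_neg_of_pos_of_neg sq3_pos h2
  constructor <;> linarith

theorem sector2 {z : ℂ} (h0 : r0 z < 0) (h1 : r1 z < 0) : l0 z < 0 ∧ 0 < l1 z := by
  have e1 := r0_eq z; have e2 := r1_eq z; have e3 := l_sum z
  have p1 := mul_neg_of_pos_of_neg sq3_pos h0
  have p2 := mul_neg_of_pos_of_neg sq3_pos h1
  constructor <;> linarith

/-- If `Re z³ > 0` then `z` is in exactly one of the three sectors. -/
theorem sectors {z : ℂ} (h : 0 < (z ^ 3).re) :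
    (0 < r0 z ∧ r1 z < 0 ∧ r2 z < 0) ∨ (r0 z < 0 ∧ 0 < r1 z ∧ r2 z < 0) ∨
      (r0 z < 0 ∧ r1 z < 0 ∧ 0 < r2 z) := by
  rw [re_cube] at h
  have hs := r_sum z
  have hp : 0 < r0 z * r1 z * r2 z := by linarith
  rcases lt_trichotomy (r0 z) 0 with h0 | h0 | h0
  · rcases lt_trichotomy (r1 z) 0 with h1 | h1 | h1
    · right; right; refine ⟨h0, h1, ?_⟩; linarith
    · rw [h1] at hp; simp at hp
    · right; left; refine ⟨h0, h1, ?_⟩
      by_contra h2
      have h3 : 0 ≤ r2 z := not_lt.1 h2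
      have := mul_nonpos_of_nonpos_of_nonneg (mul_neg_of_neg_of_pos h0 h1).le h3
      linarith
  · rw [h0] at hp; simp at hp
  · rcases lt_trichotomy (r1 z) 0 with h1 | h1 | h1
    · left; refine ⟨h0, h1, ?_⟩
      by_contra h2
      have h3 : 0 ≤ r2 z := not_lt.1 h2
      have := mul_nonpos_of_nonpos_of_nonneg (mul_neg_of_pos_of_neg h0 h1).le h3
      linarith
    · rw [h1] at hp; simp at hp
    · exfalso
      have h3 : r2 z < 0 := by linarith
      have := mul_neg_of_pos_of_neg (mul_pos h0 h1) h3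
      linarith

/-- The values of `kap` and `rho` on `{Re z³ > 0}`. -/
theorem kap_rho {z : ℂ} (h : 0 < (z ^ 3).re) (hW : W ^ 2 + W + 1 = 0) :
    kap W z ≠ 0 ∧ rho W z = (-2 * W + 2 * (1 - W ^ 2) * sg k ((z ^ 3).im)) * kap W z := by
  have hW3 := W_cube hW
  have hW0 : W ≠ 0 := by
    rintro rfl; simp at hW
  have him := im_cube z
  rcases sectors h with ⟨h0, h1, h2⟩ | ⟨h0, h1, h2⟩ | ⟨h0, h1, h2⟩
  · obtain ⟨k1, k2⟩ := sector0 h1 h2
    have hk : kap W z = 1 := by
      rw [kap, ip_pos h0, ip_neg h1.le, ip_neg h2.le]; ring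
    have hs : sg k ((z ^ 3).im) = sg k (l0 z) := by
      rw [him, show (-4 : ℝ) * (l0 z * l1 z * l2 z) = (-(4 * l1 z * l2 z)) * l0 z by ring, sg_mul,
        sg_pos (by nlinarith [mul_neg_of_neg_of_pos k1 k2]), one_mul]
    refine ⟨by rw [hk]; exact one_ne_zero, ?_⟩
    rw [rho, H2_pos (neg_pos.2 k1), H2_neg k1, H2_pos k2, hk, hs, H2_neg' (l0 z)]
    simp only [H2]
    linear_combination 2 * hW
  · obtain ⟨k1, k2⟩ := sector1 h0 h2
    have hk : kap W z = W := by
      rw [kap, ip_pos h1, ip_neg h0.le, ip_neg h2.le]; ring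
    have hs : sg k ((z ^ 3).im) = sg k (l1 z) := by
      rw [him, show (-4 : ℝ) * (l0 z * l1 z * l2 z) = (-(4 * l0 z * l2 z)) * l1 z by ring, sg_mul,
        sg_pos (by nlinarith [mul_neg_of_pos_of_neg k2 k1]), one_mul]
    refine ⟨by rw [hk]; exact hW0, ?_⟩
    rw [rho, H2_pos (neg_pos.2 k1), H2_neg k1, H2_pos k2, hk, hs, H2_neg' (l1 z)]
    simp only [H2]
    linear_combination 2 * W * hW + (2 * sg k (l1 z) - 2) * hW3
  · obtain ⟨k1, k2⟩ := sector2 h0 h1
    have hk : kap W z = W ^ 2 := by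
      rw [kap, ip_pos h2, ip_neg h0.le, ip_neg h1.le]; ring
    have hs : sg k ((z ^ 3).im) = sg k (l2 z) := by
      rw [him, show (-4 : ℝ) * (l0 z * l1 z * l2 z) = (-(4 * l0 z * l1 z)) * l2 z by ring, sg_mul,
        sg_pos (by nlinarith [mul_neg_of_neg_of_pos k1 k2]), one_mul]
    refine ⟨by rw [hk]; exact pow_ne_zero 2 hW0, ?_⟩
    rw [rho, H2_pos (neg_pos.2 k1), H2_neg k1, H2_pos k2, hk, hs, H2_neg' (l2 z)]
    simp only [H2]
    linear_combination 2 * W * hW + 2 * sg k (l2 z) * W * hW3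

end KapRho

end Vale.Agent.P265.Top
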