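import Vale.Agent.P265.H423.Signs

/-!
# The genus two surface `Sig` with its automorphism of order six, and two equivariant functions
-/

namespace Vale.Agent.P265.Top

open Set Filter Topology

/-- A function which is locally constant on a compact set is constant on small pairs. -/
theorem uniform_of_locally {X Y : Type*} [PseudoMetricSpace X] {K : Set X} (hK : IsCompact K)
    (f : X → Y) (h : ∀ p ∈ K, ∀ᶠ q in 𝓝[K] p, f q = f p) :
    ∃ ε > 0, ∀ p ∈ K, ∀ q ∈ K, dist p q < ε → f p = f q := by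
  choose! U hU using fun p (hp : p ∈ K) => mem_nhdsWithin.1 (h p hp)
  obtain ⟨ε, hε, H⟩ := lebesgue_number_lemma_of_metric (c := fun i : K => U i.1) hK
    (fun i => (hU i.1 i.2).1) (fun p hp => mem_iUnion.2 ⟨⟨p, hp⟩, (hU p hp).2.1⟩)
  refine ⟨ε, hε, fun p hp q hq hpq => ?_⟩
  obtain ⟨i, hi⟩ := H p hp
  have e1 : f p = f i.1 := (hU i.1 i.2).2.2 ⟨hi (Metric.mem_ball_self hε), hp⟩
  have e2 : f q = f i.1 := (hU i.1 i.2).2.2 ⟨hi (by rwa [Metric.mem_ball, dist_comm]), hq⟩
  rw [e1, e2]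

theorem eventually_sg {k X : Type*} [Field k] [TopologicalSpace X] {q : X → ℝ} (hq : Continuous q)
    {p : X} (hp : q p ≠ 0) (K : Set X) : ∀ᶠ x in 𝓝[K] p, sg k (q x) = sg k (q p) := by
  rcases lt_or_gt_of_ne hp with h | h
  · filter_upwards [mem_nhdsWithin_of_mem_nhds ((isOpen_Iio.preimage hq).mem_nhds h)] with x hx
    rw [sg_neg hx, sg_neg h]
  · filter_upwards [mem_nhdsWithin_of_mem_nhds ((isOpen_Ioi.preimage hq).mem_nhds h)] with x hx
    rw [sg_pos hx, sg_pos h]

theorem eventually_ip {k X : Type*} [Field k] [TopologicalSpace X] {q : X → ℝ} (hq : Continuous q)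
    {p : X} (hp : q p ≠ 0) (K : Set X) : ∀ᶠ x in 𝓝[K] p, ip k (q x) = ip k (q p) := by
  rcases lt_or_gt_of_ne hp with h | h
  · filter_upwards [mem_nhdsWithin_of_mem_nhds ((isOpen_Iio.preimage hq).mem_nhds h)] with x hx
    rw [ip_neg (le_of_lt hx), ip_neg (le_of_lt h)]
  · filter_upwards [mem_nhdsWithin_of_mem_nhds ((isOpen_Ioi.preimage hq).mem_nhds h)] with x hx
    rw [ip_pos hx, ip_pos h]

theorem continuous_r0 : Continuous r0 := Complex.continuous_re
theorem continuous_r1 : Continuous r1 := by unfold r1; fun_prop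
theorem continuous_r2 : Continuous r2 := by unfold r2; fun_prop
theorem continuous_l0 : Continuous l0 := Complex.continuous_im
theorem continuous_l1 : Continuous l1 := by unfold l1; fun_prop
theorem continuous_l2 : Continuous l2 := by unfold l2; fun_prop

section Surface

/-- The surface of genus two, a sixfold branched covering of the sphere `|w|² + s² = 4`,
`w = x₁² - x₂³`. -/
def Sig : Set (ℂ × ℂ × ℝ) :=
  {p | p.1 ^ 2 + p.2.1 ^ 3 = 1 ∧ Complex.normSq (p.1 ^ 2 - p.2.1 ^ 3) + p.2.2 ^ 2 = 4}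

/-- The automorphism of order six. -/
noncomputable def gS (p : ℂ × ℂ × ℝ) : ℂ × ℂ × ℝ := (-p.1, om * p.2.1, p.2.2)

theorem gS_mem {p : ℂ × ℂ × ℝ} (hp : p ∈ Sig) : gS p ∈ Sig := by
  have h : (om * p.2.1) ^ 3 = p.2.1 ^ 3 := by rw [mul_pow, om_cube, one_mul]
  exact ⟨by simpa [gS, h] using hp.1, by simpa [gS, h] using hp.2⟩

theorem isClosed_Sig : IsClosed Sig := by
  apply IsClosed.inter
  · exact isClosed_eq (by fun_prop) (by fun_prop)
  · exact isClosed_eq ((Complex.continuous_normSq.comp (by fun_prop)).add (by fun_prop))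
      (by fun_prop)

theorem norm_le_of_mem {p : ℂ × ℂ × ℝ} (hp : p ∈ Sig) : ‖p‖ ≤ 2 := by
  obtain ⟨h1, h2⟩ := hp
  rw [Complex.normSq_eq_norm_sq] at h2
  have hw : ‖p.1 ^ 2 - p.2.1 ^ 3‖ ≤ 2 := by
    nlinarith [norm_nonneg (p.1 ^ 2 - p.2.1 ^ 3), sq_nonneg p.2.2]
  have hs : |p.2.2| ≤ 2 := by
    rw [abs_le]; constructor <;> nlinarith [norm_nonneg (p.1 ^ 2 - p.2.1 ^ 3), sq_nonneg p.2.2]
  have e1 : ‖p.1‖ ^ 2 ≤ 4 := by
    have : p.1 ^ 2 = (1 + (p.1 ^ 2 - p.2.1 ^ 3)) / 2 := by linear_combination h1 / 2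
    rw [← norm_pow, this, norm_div]
    have := norm_add_le (1 : ℂ) (p.1 ^ 2 - p.2.1 ^ 3)
    simp only [norm_one, Complex.norm_ofNat] at this ⊢
    linarith
  have e2 : ‖p.2.1‖ ^ 3 ≤ 8 := by
    have : p.2.1 ^ 3 = (1 - (p.1 ^ 2 - p.2.1 ^ 3)) / 2 := by linear_combination h1 / 2
    rw [← norm_pow, this, norm_div]
    have := norm_sub_le (1 : ℂ) (p.1 ^ 2 - p.2.1 ^ 3)
    simp only [norm_one, Complex.norm_ofNat] at this ⊢
    linarith
  have f1 : ‖p.1‖ ≤ 2 := by nlinarith [norm_nonneg p.1]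
  have f2 : ‖p.2.1‖ ≤ 2 := by
    by_contra h
    have h' : 2 < ‖p.2.1‖ := not_le.1 h
    have : (2 : ℝ) ^ 3 < ‖p.2.1‖ ^ 3 := by gcongr
    linarith
  rw [Prod.norm_def, Prod.norm_def, Real.norm_eq_abs]
  exact max_le f1 (max_le f2 hs)

theorem isCompact_Sig : IsCompact Sig :=
  Metric.isCompact_of_isClosed_isBounded isClosed_Sig
    ((Metric.isBounded_closedBall (x := (0 : ℂ × ℂ × ℝ)) (r := 2)).subset fun p hp => by
      rw [mem_closedBall_zero_iff]; exact norm_le_of_mem hp)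

/-- The real part of `x₁²`. -/
noncomputable def ra (p : ℂ × ℂ × ℝ) : ℝ := (p.1 ^ 2).re

theorem continuous_ra : Continuous ra := by unfold ra; fun_prop

theorem ra_gS (p : ℂ × ℂ × ℝ) : ra (gS p) = ra p := by simp [ra, gS]

theorem ra_eq (p : ℂ × ℂ × ℝ) : ra p = p.1.re ^ 2 - p.1.im ^ 2 := by
  simp only [ra, pow_two, Complex.mul_re]

theorem cube_re {p : ℂ × ℂ × ℝ} (hp : p ∈ Sig) : (p.2.1 ^ 3).re = 1 - ra p := by
  have := congrArg Complex.re hp.1
  simp only [Complex.add_re, Complex.one_re] at this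
  rw [ra]; linarith

theorem cube_im {p : ℂ × ℂ × ℝ} (hp : p ∈ Sig) : (p.2.1 ^ 3).im = -(2 * (p.1.re * p.1.im)) := by
  have := congrArg Complex.im hp.1
  simp only [Complex.add_im, Complex.one_im, pow_two, Complex.mul_im] at this
  linarith

theorem s_sq {p : ℂ × ℂ × ℝ} (hp : p ∈ Sig) :
    p.2.2 ^ 2 = 4 - (2 * ra p - 1) ^ 2 - (4 * (p.1.re * p.1.im)) ^ 2 := by
  have h := hp.2
  rw [Complex.normSq_apply, Complex.sub_re, Complex.sub_im, cube_re hp, cube_im hp] at h
  have : (p.1 ^ 2).im = 2 * (p.1.re * p.1.im) := by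
    simp only [pow_two, Complex.mul_im]; ring
  rw [this] at h
  change (ra p - _) * (ra p - _) + _ + _ = _ at h
  linarith

theorem re_ne {p : ℂ × ℂ × ℝ} (h : 0 < ra p) : p.1.re ≠ 0 := by
  intro h0; rw [ra_eq, h0] at h; nlinarith [sq_nonneg p.1.im]

theorem r_ne {p : ℂ × ℂ × ℝ} (hp : p ∈ Sig) (h : ra p < 1) :
    r0 p.2.1 ≠ 0 ∧ r1 p.2.1 ≠ 0 ∧ r2 p.2.1 ≠ 0 := by
  have h3 := re_cube p.2.1
  rw [cube_re hp] at h3
  refine ⟨fun h0 => ?_, fun h0 => ?_, fun h0 => ?_⟩ <;> rw [h0] at h3 <;> simp at h3 <;> linarith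

/-- The first potential, used on `{Re x₁² < 3/4}`. -/
noncomputable def eta0 {k : Type*} [Field k] (W : k) (p : ℂ × ℂ × ℝ) : k :=
  -2 * (1 - W ^ 2) * (sg k p.1.im * kap W p.2.1)

/-- The second potential, used on `{Re x₁² > 1/4}`. -/
noncomputable def eta1 {k : Type*} [Field k] (W : k) (p : ℂ × ℂ × ℝ) : k :=
  sg k p.1.re * rho W p.2.1

variable {k : Type*} [Field k] {W : k}

theorem eta0_gS (hW : W ^ 2 + W + 1 = 0) (p : ℂ × ℂ × ℝ) : eta0 W (gS p) = -W * eta0 W p := by
  simp only [eta0, gS, kap_om hW, Complex.neg_im, sg_neg']; ring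

theorem eta1_gS (hW : W ^ 2 + W + 1 = 0) (p : ℂ × ℂ × ℝ) : eta1 W (gS p) = -W * eta1 W p := by
  simp only [eta1, gS, rho_om hW, Complex.neg_re, sg_neg']; ring

/-- On the overlap the two potentials differ by a locally constant function. -/
theorem eta1_sub_eta0 (hW : W ^ 2 + W + 1 = 0) {p : ℂ × ℂ × ℝ} (hp : p ∈ Sig) (h0 : 0 < ra p)
    (h1 : ra p < 1) : eta1 W p - eta0 W p = -2 * W * (sg k p.1.re * kap W p.2.1) := by
  have h3 : 0 < (p.2.1 ^ 3).re := by rw [cube_re hp]; linarith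
  have hr := sg_sq (k := k) (re_ne h0)
  have h2 : sg k 2 = 1 := sg_pos (by norm_num)
  rw [eta1, eta0, (kap_rho h3 hW).2, cube_im hp, sg_neg', sg_mul, sg_mul, h2]
  linear_combination (-2 * (1 - W ^ 2) * sg k p.1.im * kap W p.2.1) * hr

theorem eventually_kap {p : ℂ × ℂ × ℝ} (hp : p ∈ Sig) (h : ra p < 1) (K : Set (ℂ × ℂ × ℝ)) :
    ∀ᶠ q in 𝓝[K] p, kap W q.2.1 = kap W p.2.1 := by
  obtain ⟨h0, h1, h2⟩ := r_ne hp h
  filter_upwards [eventually_ip (k := k) (continuous_r0.comp (continuous_fst.comp continuous_snd))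
    h0 K, eventually_ip (k := k) (continuous_r1.comp (continuous_fst.comp continuous_snd)) h1 K,
    eventually_ip (k := k) (continuous_r2.comp (continuous_fst.comp continuous_snd)) h2 K]
    with q e0 e1 e2
  simp only [Function.comp_apply] at e0 e1 e2
  rw [kap, kap, e0, e1, e2]

/-- In the region `s² < 3` the first potential is locally constant. -/
theorem eventually_eta0 {p : ℂ × ℂ × ℝ} (hp : p ∈ Sig) (h : ra p ≤ 3 / 4) (hs : p.2.2 ^ 2 < 3)
    (K : Set (ℂ × ℂ × ℝ)) : ∀ᶠ q in 𝓝[K] p, eta0 W q = eta0 W p := by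
  have him : p.1.im ≠ 0 := by
    intro h0
    have h1 := s_sq hp
    have h2 := ra_eq p
    rw [h0] at h1 h2
    nlinarith [sq_nonneg p.1.re]
  filter_upwards [eventually_sg (k := k) (Complex.continuous_im.comp continuous_fst) him K,
    eventually_kap (W := W) hp (by linarith) K] with q e0 e1
  simp only [Function.comp_apply] at e0
  rw [eta0, eta0, e0, e1]

/-- Off the three rays `z³ ≥ 0` the function `rho` is locally constant. -/
theorem eventually_rho {X : Type*} [TopologicalSpace X] {z : X → ℂ} (hz : Continuous z) {p : X}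
    (hp : ¬ (((z p) ^ 3).im = 0 ∧ 0 ≤ ((z p) ^ 3).re)) (K : Set X) :
    ∀ᶠ q in 𝓝[K] p, rho W (z q) = rho W (z p) := by
  have key : (0 < l0 (z p) ∧ l1 (z p) < 0) ∨ (0 < l1 (z p) ∧ l2 (z p) < 0) ∨
      (0 < l2 (z p) ∧ l0 (z p) < 0) := by
    by_contra hcon
    push Not at hcon
    obtain ⟨c0, c1, c2⟩ := hcon
    have hs := l_sum (z p)
    have e0 := r0_eq (z p)
    have e1 := r1_eq (z p)
    have e2 := r2_eq (z p)
    have hre := re_cube (z p)
    have h3 := sq3_pos
    have hprod : (√3 * r0 (z p)) * (√3 * r1 (z p)) * (√3 * r2 (z p)) =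
        3 * √3 * (r0 (z p) * r1 (z p) * r2 (z p)) := by
      linear_combination (√3 * r0 (z p) * r1 (z p) * r2 (z p)) * sq3
    rw [e0, e1, e2] at hprod
    have him := im_cube (z p)
    have hzero : l0 (z p) * l1 (z p) * l2 (z p) = 0 := by
      by_contra hne
      have n0 : l0 (z p) ≠ 0 := fun h => hne (by rw [h]; ring)
      have n1 : l1 (z p) ≠ 0 := fun h => hne (by rw [h]; ring)
      have n2 : l2 (z p) ≠ 0 := fun h => hne (by rw [h]; ring)
      rcases lt_or_gt_of_ne n0 with a | a <;> rcases lt_or_gt_of_ne n1 with b | b <;>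
        rcases lt_or_gt_of_ne n2 with c | c
      · linarith
      · have := c2 c; linarith
      · have := c1 b; linarith
      · have := c2 c; linarith
      · have := c0 a; linarith
      · have := c0 a; linarith
      · have := c1 b; linarith
      · linarith
    apply hp
    refine ⟨by rw [him, hzero]; ring, ?_⟩
    rw [hre]
    have hpos : 0 ≤ (l2 (z p) - l1 (z p)) * (l0 (z p) - l2 (z p)) * (l1 (z p) - l0 (z p)) := by
      rcases mul_eq_zero.1 hzero with h | h
      · rcases mul_eq_zero.1 h with h | h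
        · have : l1 (z p) ≤ 0 := by
            by_contra hh
            have := c1 (not_le.1 hh); linarith
          have h2 : l2 (z p) = -l1 (z p) := by linarith
          rw [h, h2]
          have : 0 ≤ -(l1 (z p) ^ 3) := by
            have := pow_nonneg (neg_nonneg.2 this) 3
            nlinarith
          nlinarith
        · have : l2 (z p) ≤ 0 := by
            by_contra hh
            have := c2 (not_le.1 hh); linarith
          have h2 : l0 (z p) = -l2 (z p) := by linarith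
          rw [h, h2]
          have : 0 ≤ -(l2 (z p) ^ 3) := by
            have := pow_nonneg (neg_nonneg.2 this) 3
            nlinarith
          nlinarith
      · have : l0 (z p) ≤ 0 := by
          by_contra hh
          have := c0 (not_le.1 hh); linarith
        have h2 : l1 (z p) = -l0 (z p) := by linarith
        rw [h, h2]
        have : 0 ≤ -(l0 (z p) ^ 3) := by
          have := pow_nonneg (neg_nonneg.2 this) 3
          nlinarith
        nlinarith
    rw [hprod] at hpos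
    have : 0 ≤ r0 (z p) * r1 (z p) * r2 (z p) := by
      by_contra hh
      have := mul_neg_of_pos_of_neg (mul_pos (by norm_num : (0 : ℝ) < 3) h3) (not_le.1 hh)
      linarith
    linarith
  have C0 : ∀ x : X, 0 < l0 (z x) → l1 (z x) < 0 → rho W (z x) = 4 := by
    intro x h h'
    rw [rho, H2_pos h, H2_neg h', H2_pos (neg_pos.2 h'), H2_neg (neg_lt_zero.2 h)]
    ring
  have C1 : ∀ x : X, 0 < l1 (z x) → l2 (z x) < 0 → rho W (z x) = 4 * W := by
    intro x h h'
    rw [rho, H2_pos h, H2_neg h', H2_pos (neg_pos.2 h'), H2_neg (neg_lt_zero.2 h)]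
    ring
  have C2 : ∀ x : X, 0 < l2 (z x) → l0 (z x) < 0 → rho W (z x) = 4 * W ^ 2 := by
    intro x h h'
    rw [rho, H2_pos h, H2_neg h', H2_pos (neg_pos.2 h'), H2_neg (neg_lt_zero.2 h)]
    ring
  have pos : ∀ f : ℂ → ℝ, Continuous f → 0 < f (z p) → ∀ᶠ q in 𝓝[K] p, 0 < f (z q) :=
    fun f hf h => mem_nhdsWithin_of_mem_nhds ((isOpen_Ioi.preimage (hf.comp hz)).mem_nhds h)
  have neg : ∀ f : ℂ → ℝ, Continuous f → f (z p) < 0 → ∀ᶠ q in 𝓝[K] p, f (z q) < 0 :=
    fun f hf h => mem_nhdsWithin_of_mem_nhds ((isOpen_Iio.preimage (hf.comp hz)).mem_nhds h)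
  rcases key with ⟨h, h'⟩ | ⟨h, h'⟩ | ⟨h, h'⟩
  · filter_upwards [pos _ continuous_l0 h, neg _ continuous_l1 h'] with q a b
    rw [C0 q a b, C0 p h h']
  · filter_upwards [pos _ continuous_l1 h, neg _ continuous_l2 h'] with q a b
    rw [C1 q a b, C1 p h h']
  · filter_upwards [pos _ continuous_l2 h, neg _ continuous_l0 h'] with q a b
    rw [C2 q a b, C2 p h h']

/-- In the region `s² < 3` the second potential is locally constant. -/
theorem eventually_eta1 {p : ℂ × ℂ × ℝ} (hp : p ∈ Sig) (h : 1 / 4 ≤ ra p) (hs : p.2.2 ^ 2 < 3)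
    (K : Set (ℂ × ℂ × ℝ)) : ∀ᶠ q in 𝓝[K] p, eta1 W q = eta1 W p := by
  have hre : p.1.re ≠ 0 := re_ne (by linarith)
  have hcube : ¬ ((p.2.1 ^ 3).im = 0 ∧ 0 ≤ (p.2.1 ^ 3).re) := by
    rintro ⟨h1, h2⟩
    rw [cube_im hp] at h1
    rw [cube_re hp] at h2
    have h3 := s_sq hp
    have h4 : p.1.re * p.1.im = 0 := by linarith
    rw [h4] at h3
    nlinarith
  filter_upwards [eventually_sg (k := k) (Complex.continuous_re.comp continuous_fst) hre K,
    eventually_rho (W := W) (continuous_fst.comp continuous_snd) hcube K] with q e0 e1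
  simp only [Function.comp_apply] at e0 e1
  rw [eta1, eta1, e0, e1]

end Surface

end Vale.Agent.P265.Top
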