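import Vale.Agent.P265.H423.SigInv
import Vale.Agent.P265.H266.Circle
import Vale.Agent.P265.Dis.Model

/-!
# The sixfold cyclic cover of `M` is the product `Sig × S¹ × S¹ × S²`
-/

open Set Matrix Topology
open scoped Quaternion

namespace Vale.Agent.P265.Top

open Vale.Agent.P265.AS Vale.Agent.P265.Dis

/-- The primitive sixth root of unity `e^{2πi/6}`. -/
noncomputable def ze : ℂ := ⟨1 / 2, √3 / 2⟩

theorem ze_sq : ze ^ 2 = om := by
  apply Complex.ext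
  · simp only [pow_two, Complex.mul_re, ze, om]; linear_combination (-1/4) * sq3
  · simp only [pow_two, Complex.mul_im, ze, om]; ring

theorem ze_cube : ze ^ 3 = -1 := by
  rw [pow_succ, ze_sq]
  apply Complex.ext
  · simp only [Complex.mul_re, ze, om, Complex.neg_re, Complex.one_re]
    linear_combination (-1/4) * sq3
  · simp only [Complex.mul_im, ze, om, Complex.neg_im, Complex.one_im]; ring

theorem ze_six : ze ^ 6 = 1 := by
  rw [show ze ^ 6 = (ze ^ 3) ^ 2 by ring, ze_cube]; norm_num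

theorem norm_ze : ‖ze‖ = 1 := by
  have h : ‖ze‖ ^ 6 = 1 := by rw [← norm_pow, ze_six, norm_one]
  exact (pow_eq_one_iff_of_nonneg (norm_nonneg _) (by norm_num)).1 h

/-- The product model of the cover. -/
def YY : Set ((((ℂ × ℂ × ℝ) × ℂ) × ℂ) × (ℝ × ℂ)) :=
  {p | p.1 ∈ circ (circ Sig) ∧ p.2.1 ^ 2 + ‖p.2.2‖ ^ 2 = 1}

/-- Its deck transformation. -/
noncomputable def gY : ((((ℂ × ℂ × ℝ) × ℂ) × ℂ) × (ℝ × ℂ)) →
    ((((ℂ × ℂ × ℝ) × ℂ) × ℂ) × (ℝ × ℂ)) := Prod.map (rot (rot gSi ze) 1) id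

/-- The imaginary quaternion of a point of `ℝ × ℂ`. -/
noncomputable def qB (v : ℝ × ℂ) : ℍ[ℝ] := ⟨0, v.1, v.2.re, v.2.im⟩

theorem norm_qB (v : ℝ × ℂ) : ‖qB v‖ ^ 2 = v.1 ^ 2 + ‖v.2‖ ^ 2 := by
  rw [pow_two ‖qB v‖, ← Quaternion.normSq_eq_norm_mul_self, ← Complex.normSq_eq_norm_sq,
    Quaternion.normSq_def', Complex.normSq_apply]
  simp only [qB]; ring

/-- The ambient point of `E` over a point of the product. -/
noncomputable def toE (p : (((ℂ × ℂ × ℝ) × ℂ) × ℂ) × (ℝ × ℂ)) : Dis.E :=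
  ((p.1.2, p.1.1.2 ^ 3 * p.1.1.1.1, p.1.1.2 ^ 2 * p.1.1.1.2.1, p.1.1.1.2.2), qB p.2)

theorem fW_toE {p : (((ℂ × ℂ × ℝ) × ℂ) × ℂ) × (ℝ × ℂ)} (hp : p ∈ YY) :
    fW (toE p).1 = p.1.1.2 ^ 6 := by
  have h := hp.1.1.1.1
  simp only [fW, toE]
  linear_combination p.1.1.2 ^ 6 * h

theorem dW_toE (p : (((ℂ × ℂ × ℝ) × ℂ) × ℂ) × (ℝ × ℂ)) :
    dW (toE p).1 = p.1.1.2 ^ 6 * (p.1.1.1.1 ^ 2 - p.1.1.1.2.1 ^ 3) := by
  simp only [dW, toE]; ring

theorem G_toE {p : (((ℂ × ℂ × ℝ) × ℂ) × ℂ) × (ℝ × ℂ)} (hp : p ∈ YY) : G (toE p) = 0 := by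
  obtain ⟨⟨⟨⟨h1, h2⟩, h3⟩, h4⟩, h5⟩ := hp
  rw [mem_iff]
  refine ⟨h4, ?_, ?_, ?_, rfl⟩
  · rw [fW_toE ⟨⟨⟨⟨h1, h2⟩, h3⟩, h4⟩, h5⟩, norm_pow, h3, one_pow]
  · rw [dW_toE, norm_mul, norm_pow, h3, one_pow, one_mul, ← Complex.normSq_eq_norm_sq]
    exact h2
  · have h := norm_qB p.2
    rw [h5] at h
    exact (pow_eq_one_iff_of_nonneg (norm_nonneg _) (by norm_num)).1 h

theorem continuous_qB : Continuous qB := by
  have h : Continuous fun v : ℝ × ℂ => Quaternion.linearIsometryEquivTuple.symm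
      (WithLp.toLp 2 ![0, v.1, v.2.re, v.2.im]) := by
    refine Quaternion.linearIsometryEquivTuple.symm.continuous.comp ?_
    refine (PiLp.continuous_toLp 2 _).comp (continuous_pi fun i => ?_)
    fin_cases i <;> simp <;> fun_prop
  exact h

theorem continuous_toE : Continuous toE := by
  unfold toE
  refine Continuous.prodMk (by fun_prop) (continuous_qB.comp continuous_snd)

theorem isCompact_YY : IsCompact YY := by
  have hcl : IsClosed YY := by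
    have h1 : IsClosed {p : (((ℂ × ℂ × ℝ) × ℂ) × ℂ) × (ℝ × ℂ) | p.1.1.1 ∈ Sig} :=
      isClosed_Sig.preimage (by fun_prop)
    have h2 : IsClosed {p : (((ℂ × ℂ × ℝ) × ℂ) × ℂ) × (ℝ × ℂ) | ‖p.1.1.2‖ = 1} :=
      isClosed_eq (by fun_prop) (by fun_prop)
    have h3 : IsClosed {p : (((ℂ × ℂ × ℝ) × ℂ) × ℂ) × (ℝ × ℂ) | ‖p.1.2‖ = 1} :=
      isClosed_eq (by fun_prop) (by fun_prop)
    have h4 : IsClosed {p : (((ℂ × ℂ × ℝ) × ℂ) × ℂ) × (ℝ × ℂ) |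
        p.2.1 ^ 2 + ‖p.2.2‖ ^ 2 = 1} := isClosed_eq (by fun_prop) (by fun_prop)
    exact ((h1.inter h2).inter h3).inter h4
  refine Metric.isCompact_of_isClosed_isBounded hcl
    ((Metric.isBounded_closedBall (x := 0) (r := 2)).subset fun p hp => ?_)
  obtain ⟨⟨⟨h1, h3⟩, h4⟩, h5⟩ := hp
  rw [mem_closedBall_zero_iff]
  have a1 : ‖p.2.1‖ ≤ 2 := by
    rw [Real.norm_eq_abs]; exact abs_le_of_sq_le_sq (by nlinarith [sq_nonneg ‖p.2.2‖]) (by norm_num)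
  have a2 : ‖p.2.2‖ ≤ 2 := by nlinarith [norm_nonneg p.2.2, sq_nonneg p.2.1]
  exact max_le (max_le (max_le (norm_le_of_mem h1) (h3.le.trans (by norm_num)))
    (h4.le.trans (by norm_num))) (max_le a1 a2)

section Cover

/-- A complex number of norm one as a point of the circle. -/
def toC (z : ℂ) (h : ‖z‖ = 1) : Circle := ⟨z, mem_sphere_zero_iff_norm.2 h⟩

theorem coe_toC (z : ℂ) (h : ‖z‖ = 1) : (toC z h : ℂ) = z := rfl

theorem continuous_cC : Continuous fun z : Circle => (z : ℂ) := continuous_induced_dom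

theorem G_toE' {p : (((ℂ × ℂ × ℝ) × ℂ) × ℂ) × (ℝ × ℂ)} (hp : p ∈ YY) : RL.G (toE p) = 0 :=
  G_toE hp

variable (h : Dis.M → Circle) (hh' : ∀ m : Dis.M, (h m : ℂ) = fW (RL.ι m).1)

/-- The point of the cover over a point of the product. -/
noncomputable def toN (p : YY) : {q : Dis.M × Circle // q.2 ^ 6 = h q.1} :=
  ⟨(RL.pt (toE p.1) (G_toE' p.2), toC p.1.1.1.2 p.2.1.1.2),
    Circle.ext (by
      change (toC p.1.1.1.2 p.2.1.1.2 : ℂ) ^ 6 = (h (RL.pt (toE p.1) (G_toE' p.2)) : ℂ)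
      rw [hh', RL.ι_pt, fW_toE p.2, coe_toC])⟩

theorem ι_toN (p : YY) : RL.ι (toN h hh' p).1.1 = toE p.1 := rfl

theorem coe_toN (p : YY) : ((toN h hh' p).1.2 : ℂ) = p.1.1.1.2 := rfl

theorem continuous_toN : Continuous (toN h hh') := by
  refine Continuous.subtype_mk (Continuous.prodMk ?_ ?_) _
  · exact RL.isEmbedding_ι.continuous_iff.2 (continuous_toE.comp continuous_subtype_val)
  · refine Continuous.subtype_mk ?_ _
    fun_prop

theorem ext_N {q q' : {q : Dis.M × Circle // q.2 ^ 6 = h q.1}} (h1 : RL.ι q.1.1 = RL.ι q'.1.1)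
    (h2 : (q.1.2 : ℂ) = q'.1.2) : q = q' :=
  Subtype.ext (Prod.ext (RL.ext h1) (Circle.ext h2))

/-- The imaginary coordinates of a quaternion. -/
noncomputable def vB (v : ℍ[ℝ]) : ℝ × ℂ := (v.imI, ⟨v.imJ, v.imK⟩)

theorem vB_qB (v : ℝ × ℂ) : vB (qB v) = v := rfl

theorem qB_vB {v : ℍ[ℝ]} (hv : v.re = 0) : qB (vB v) = v := by
  ext <;> simp [qB, vB, hv]

theorem continuous_vB : Continuous vB := by
  have hK : Continuous fun v : ℍ[ℝ] => (⟨v.imJ, v.imK⟩ : ℂ) := by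
    have e : (fun v : ℍ[ℝ] => (⟨v.imJ, v.imK⟩ : ℂ)) = fun v => (v.imJ : ℂ) + v.imK * Complex.I := by
      funext v; apply Complex.ext <;> simp
    rw [e]
    exact (Complex.continuous_ofReal.comp Quaternion.continuous_imJ).add
      ((Complex.continuous_ofReal.comp Quaternion.continuous_imK).mul continuous_const)
  exact Quaternion.continuous_imI.prodMk hK

/-- The ambient point of the product under a point of the cover. -/
noncomputable def ofN (q : {q : Dis.M × Circle // q.2 ^ 6 = h q.1}) :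
    (((ℂ × ℂ × ℝ) × ℂ) × ℂ) × (ℝ × ℂ) :=
  ((((((q.1.2⁻¹ : Circle) : ℂ) ^ 3 * (RL.ι q.1.1).1.2.1,
      ((q.1.2⁻¹ : Circle) : ℂ) ^ 2 * (RL.ι q.1.1).1.2.2.1, (RL.ι q.1.1).1.2.2.2),
        (q.1.2 : ℂ)), (RL.ι q.1.1).1.1), vB (RL.ι q.1.1).2)

theorem continuous_ofN : Continuous (ofN h) := by
  have hι : Continuous fun q : {q : Dis.M × Circle // q.2 ^ 6 = h q.1} => RL.ι q.1.1 :=
    RL.continuous_ι.comp (by fun_prop)
  have hτ : Continuous fun q : {q : Dis.M × Circle // q.2 ^ 6 = h q.1} => (q.1.2 : ℂ) :=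
    continuous_cC.comp (by fun_prop)
  have hτ' : Continuous fun q : {q : Dis.M × Circle // q.2 ^ 6 = h q.1} =>
      ((q.1.2⁻¹ : Circle) : ℂ) := continuous_cC.comp (by fun_prop)
  unfold ofN
  refine Continuous.prodMk (Continuous.prodMk (Continuous.prodMk (Continuous.prodMk ?_
    (Continuous.prodMk ?_ ?_)) hτ) ?_) ?_
  · exact (hτ'.pow 3).mul (continuous_fst.comp (continuous_snd.comp (continuous_fst.comp hι)))
  · exact (hτ'.pow 2).mul (continuous_fst.comp (continuous_snd.comp (continuous_snd.comp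
      (continuous_fst.comp hι))))
  · exact continuous_snd.comp (continuous_snd.comp (continuous_snd.comp (continuous_fst.comp hι)))
  · exact continuous_fst.comp (continuous_fst.comp hι)
  · exact continuous_vB.comp (continuous_snd.comp hι)

theorem ofN_toN (p : YY) : ofN h (toN h hh' p) = p.1 := by
  have he : p.1.1.1.2 ≠ 0 := by
    have := p.2.1.1.2
    rintro h0; rw [h0] at this; simp at this
  have e1 : (((toN h hh' p).1.2⁻¹ : Circle) : ℂ) = (p.1.1.1.2)⁻¹ := by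
    rw [Circle.coe_inv, coe_toN]
  simp only [ofN, e1, ι_toN, coe_toN, toE, vB_qB]
  have a1 : p.1.1.1.2⁻¹ ^ 3 * (p.1.1.1.2 ^ 3 * p.1.1.1.1.1) = p.1.1.1.1.1 := by
    rw [← mul_assoc, ← mul_pow, inv_mul_cancel₀ he, one_pow, one_mul]
  have a2 : p.1.1.1.2⁻¹ ^ 2 * (p.1.1.1.2 ^ 2 * p.1.1.1.1.2.1) = p.1.1.1.1.2.1 := by
    rw [← mul_assoc, ← mul_pow, inv_mul_cancel₀ he, one_pow, one_mul]
  rw [a1, a2]

include hh' in
theorem fW_ofN (q : {q : Dis.M × Circle // q.2 ^ 6 = h q.1}) :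
    fW (RL.ι q.1.1).1 = (q.1.2 : ℂ) ^ 6 := by
  rw [← hh', ← q.2]; rfl

include hh' in
theorem ofN_mem (q : {q : Dis.M × Circle // q.2 ^ 6 = h q.1}) : ofN h q ∈ YY := by
  have hf := fW_ofN h hh' q
  obtain ⟨hc, -, hD, hv, hre⟩ := (mem_iff _).1 (RL.G_ι q.1.1)
  have hτ : (q.1.2 : ℂ) ≠ 0 := Circle.coe_ne_zero _
  have hn : ‖(q.1.2 : ℂ)‖ = 1 := Circle.norm_coe _
  have hi : ((q.1.2⁻¹ : Circle) : ℂ) = (q.1.2 : ℂ)⁻¹ := Circle.coe_inv _
  have h6 : ((q.1.2 : ℂ)⁻¹) ^ 6 * (q.1.2 : ℂ) ^ 6 = 1 := by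
    rw [← mul_pow, inv_mul_cancel₀ hτ, one_pow]
  refine ⟨⟨⟨⟨?_, ?_⟩, hn⟩, hc⟩, ?_⟩
  · simp only [ofN, hi]
    simp only [fW] at hf
    linear_combination ((q.1.2 : ℂ)⁻¹) ^ 6 * hf + h6
  · simp only [ofN, hi]
    have e : ((q.1.2 : ℂ)⁻¹ ^ 3 * (RL.ι q.1.1).1.2.1) ^ 2 -
        ((q.1.2 : ℂ)⁻¹ ^ 2 * (RL.ι q.1.1).1.2.2.1) ^ 3 =
        ((q.1.2 : ℂ)⁻¹) ^ 6 * dW (RL.ι q.1.1).1 := by simp only [dW]; ring
    rw [e, Complex.normSq_eq_norm_sq, norm_mul, norm_pow, norm_inv, hn, inv_one, one_pow, one_mul]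
    exact hD
  · have e := norm_qB (vB (RL.ι q.1.1).2)
    rw [qB_vB hre, hv] at e
    simp only [ofN]
    rw [← e]; norm_num

theorem gSi_mem {p : ℂ × ℂ × ℝ} (hp : p ∈ Sig) : gSi p ∈ Sig := by
  have h : (om ^ 2 * p.2.1) ^ 3 = p.2.1 ^ 3 := by
    rw [mul_pow, show (om ^ 2) ^ 3 = (om ^ 3) ^ 2 by ring, om_cube]; ring
  exact ⟨by simpa [gSi, h] using hp.1, by simpa [gSi, h] using hp.2⟩

theorem gY_mem {p : (((ℂ × ℂ × ℝ) × ℂ) × ℂ) × (ℝ × ℂ)} (hp : p ∈ YY) : gY p ∈ YY := by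
  obtain ⟨⟨⟨h1, h3⟩, h4⟩, h5⟩ := hp
  refine ⟨⟨⟨gSi_mem h1, ?_⟩, ?_⟩, h5⟩
  · change ‖ze * p.1.1.2‖ = 1
    rw [norm_mul, norm_ze, h3, one_mul]
  · change ‖1 * p.1.2‖ = 1
    rw [one_mul, h4]

theorem toE_gY (p : (((ℂ × ℂ × ℝ) × ℂ) × ℂ) × (ℝ × ℂ)) : toE (gY p) = toE p := by
  have e1 : (ze * p.1.1.2) ^ 3 * (-p.1.1.1.1) = p.1.1.2 ^ 3 * p.1.1.1.1 := by
    rw [mul_pow, ze_cube]; ring
  have e2 : (ze * p.1.1.2) ^ 2 * (om ^ 2 * p.1.1.1.2.1) = p.1.1.2 ^ 2 * p.1.1.1.2.1 := by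
    rw [mul_pow, ze_sq]
    linear_combination (p.1.1.2 ^ 2 * p.1.1.1.2.1) * om_cube
  simp only [toE, gY, Prod.map, rot, gSi, id]
  rw [e1, e2, one_mul]

theorem YY_nonempty : YY.Nonempty := by
  refine ⟨(((yp 1 0, 1), 1), (1, 0)), ⟨⟨yp_mem (by simp) le_rfl zero_le_one, ?_⟩, ?_⟩, ?_⟩
  · simp
  · simp
  · simp

open Classical in
/-- The map from the ambient space of the product to the cover. -/
noncomputable def phi (p : (((ℂ × ℂ × ℝ) × ℂ) × ℂ) × (ℝ × ℂ)) :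
    {q : Dis.M × Circle // q.2 ^ 6 = h q.1} :=
  if hp : p ∈ YY then toN h hh' ⟨p, hp⟩ else toN h hh' ⟨YY_nonempty.some, YY_nonempty.some_mem⟩

theorem phi_of_mem {p : (((ℂ × ℂ × ℝ) × ℂ) × ℂ) × (ℝ × ℂ)} (hp : p ∈ YY) :
    phi h hh' p = toN h hh' ⟨p, hp⟩ := dif_pos hp

include hh' in
/-- **Transfer**: the equivariant cohomology of the product is at most that of the cover. -/
theorem transfer [CompactSpace {q : Dis.M × Circle // q.2 ^ 6 = h q.1}]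
    (g : {q : Dis.M × Circle // q.2 ^ 6 = h q.1} → {q : Dis.M × Circle // q.2 ^ 6 = h q.1})
    (hg1 : ∀ q, (g q).1.1 = q.1.1) (hg2 : ∀ q, ((g q).1.2 : ℂ) = ze * q.1.2)
    {k : Type} [Field k] (χ : k) (j : ℕ) : hh gY χ YY ∅ j ≤ hh g χ univ ∅ j := by
  have hφ : IsMapP gY g YY ∅ univ ∅ (phi h hh') := by
    refine ⟨fun _ _ => trivial, fun _ h => h.elim, fun p hp => ?_, fun ε hε => ?_⟩
    · rw [phi_of_mem h hh' hp, phi_of_mem h hh' (gY_mem hp)]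
      apply ext_N
      · rw [hg1, ι_toN, ι_toN]
        exact toE_gY p
      · rw [hg2, coe_toN, coe_toN]
        rfl
    · have : CompactSpace YY := isCompact_iff_compactSpace.1 isCompact_YY
      obtain ⟨δ, hδ, H⟩ := Metric.uniformContinuous_iff.1
        (CompactSpace.uniformContinuous_of_continuous (continuous_toN h hh')) ε hε
      refine ⟨δ, hδ, fun p hp q hq hpq => ?_⟩
      rw [phi_of_mem h hh' hp, phi_of_mem h hh' hq]
      exact H hpq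
  have hψ : IsMapP g gY univ ∅ YY ∅ (ofN h) := by
    refine ⟨fun q _ => ofN_mem h hh' q, fun _ h => h.elim, fun q _ => ?_, fun ε hε => ?_⟩
    · have e1 : (((g q).1.2⁻¹ : Circle) : ℂ) = ze⁻¹ * ((q.1.2⁻¹ : Circle) : ℂ) := by
        rw [Circle.coe_inv, hg2, mul_inv, Circle.coe_inv]
      have e3 : ze⁻¹ ^ 3 = -1 := by rw [inv_pow, ze_cube]; norm_num
      have e2 : ze⁻¹ ^ 2 = om ^ 2 := by
        rw [inv_pow, ze_sq]
        have : om * om ^ 2 = 1 := by rw [← om_cube]; ring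
        exact inv_eq_of_mul_eq_one_right this
      simp only [ofN, gY, Prod.map, rot, gSi, id, hg1, hg2, e1]
      rw [one_mul, mul_pow, mul_pow, e3, e2]
      have a1 : -1 * ((q.1.2⁻¹ : Circle) : ℂ) ^ 3 * (RL.ι q.1.1).1.2.1 =
        -(((q.1.2⁻¹ : Circle) : ℂ) ^ 3 * (RL.ι q.1.1).1.2.1) := by ring
      have a2 : om ^ 2 * ((q.1.2⁻¹ : Circle) : ℂ) ^ 2 * (RL.ι q.1.1).1.2.2.1 =
        om ^ 2 * (((q.1.2⁻¹ : Circle) : ℂ) ^ 2 * (RL.ι q.1.1).1.2.2.1) := by ring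
      rw [a1, a2]
    · obtain ⟨δ, hδ, H⟩ := Metric.uniformContinuous_iff.1
        (CompactSpace.uniformContinuous_of_continuous (continuous_ofN h)) ε hε
      exact ⟨δ, hδ, fun p _ q _ hpq => H hpq⟩
  refine hh_le_of_retract (H := fun _ p => p) hφ hψ
    ⟨fun _ _ _ h => h, fun _ _ _ h => h.elim, fun _ _ _ _ => rfl, fun ε hε =>
      ⟨ε, hε, fun _ _ _ _ p _ q _ _ h => h⟩⟩ (empty_subset _) (empty_subset _)
    (fun _ _ => rfl) (fun p hp => ?_) χ j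
  rw [phi_of_mem h hh' hp, ofN_toN]

end Cover

end Vale.Agent.P265.Top
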